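import Mathlib
import Crest.Prelude.Def_EditDistance

/-!
Row 210 (S0323): basic facts on the unit-cost edit distance, and a binary block code whose
edit distance is bounded below by the LCS-defect of the symbol words.
-/

set_option autoImplicit false

open Crest.GeometryTopology.EditDistance

namespace Crest.Agent.R210

section General

variable {α β : Type}

/-! ### Adjacency and connectivity -/

theorem adj_iff {u v : List α} : (editGraph α).Adj u v ↔
    u ≠ v ∧ ((IsInsertion u v ∨ IsSubstitution u v) ∨ (IsInsertion v u ∨ IsSubstitution v u)) := by
  simp [editGraph, SimpleGraph.fromRel_adj]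

theorem adj_insert (l r : List α) (a : α) : (editGraph α).Adj (l ++ r) (l ++ a :: r) := by
  rw [adj_iff]
  refine ⟨fun h => ?_, Or.inl (Or.inl ⟨l, r, a, rfl, rfl⟩)⟩
  have := congrArg List.length h
  simp at this

theorem adj_subst (l r : List α) {a b : α} (h : a ≠ b) :
    (editGraph α).Adj (l ++ a :: r) (l ++ b :: r) := by
  rw [adj_iff]
  refine ⟨fun h' => ?_, Or.inl (Or.inr ⟨l, r, a, b, h, rfl, rfl⟩)⟩
  simp at h'
  exact h h'

theorem reachable_nil (u : List α) : (editGraph α).Reachable u [] := by
  induction u with
  | nil => exact SimpleGraph.Reachable.refl _
  | cons a t ih =>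
    have h := adj_insert (α := α) [] t a
    exact (SimpleGraph.Adj.reachable h).symm.trans ih

theorem editGraph_connected : (editGraph α).Connected := by
  have : Nonempty (List α) := ⟨[]⟩
  refine ⟨fun u v => (reachable_nil u).trans (reachable_nil v).symm⟩

theorem editDist_triangle (u v w : List α) : editDist u w ≤ editDist u v + editDist v w :=
  editGraph_connected.dist_triangle

theorem editDist_comm (u v : List α) : editDist u v = editDist v u :=
  SimpleGraph.dist_comm

theorem editDist_self (u : List α) : editDist u u = 0 := SimpleGraph.dist_self

theorem editDist_adj {u v : List α} (h : (editGraph α).Adj u v) : editDist u v = 1 :=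
  SimpleGraph.dist_eq_one_iff_adj.2 h

/-- A map on words sending edges to pairs at distance `≤ c` is `c`-Lipschitz. -/
theorem editDist_lipschitz (F : List α → List β) (c : ℕ)
    (hF : ∀ u v, (editGraph α).Adj u v → editDist (F u) (F v) ≤ c) (u v : List α) :
    editDist (F u) (F v) ≤ c * editDist u v := by
  obtain ⟨p, hp⟩ := editGraph_connected.exists_walk_length_eq_dist u v
  have key : ∀ {u v : List α} (p : (editGraph α).Walk u v),
      editDist (F u) (F v) ≤ c * p.length := by
    intro u v p
    induction p with
    | nil => simp [editDist_self]
    | @cons a b d h q ih =>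
      have h1 := hF a b h
      have h2 := editDist_triangle (F a) (F b) (F d)
      rw [SimpleGraph.Walk.length_cons]
      nlinarith
  have := key p
  rw [hp] at this
  exact this

theorem editDist_append_context (l r u v : List α) :
    editDist (l ++ u ++ r) (l ++ v ++ r) ≤ editDist u v := by
  have := editDist_lipschitz (fun x : List α => l ++ x ++ r) 1 (fun u v h => ?_) u v
  · simpa using this
  · apply le_of_eq
    apply editDist_adj
    have h' := h
    rw [adj_iff] at h'
    obtain ⟨hne, h1⟩ := h'
    rcases h1 with (⟨l', r', a, rfl, rfl⟩ | ⟨l', r', a, b, hab, rfl, rfl⟩) |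
      (⟨l', r', a, rfl, rfl⟩ | ⟨l', r', a, b, hab, rfl, rfl⟩)
    · have := adj_insert (l ++ l') (r' ++ r) a
      simpa using this
    · have := adj_subst (l ++ l') (r' ++ r) hab
      simpa using this
    · have := (adj_insert (l ++ l') (r' ++ r) a).symm
      simpa using this
    · have := (adj_subst (l ++ l') (r' ++ r) hab).symm
      simpa using this

theorem editDist_append (u₁ u₂ v₁ v₂ : List α) :
    editDist (u₁ ++ u₂) (v₁ ++ v₂) ≤ editDist u₁ v₁ + editDist u₂ v₂ := by
  have h1 := editDist_append_context [] u₂ u₁ v₁
  have h2 := editDist_append_context v₁ [] u₂ v₂
  simp only [List.nil_append, List.append_nil] at h1 h2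
  exact (editDist_triangle _ (v₁ ++ u₂) _).trans (Nat.add_le_add h1 h2)

theorem editDist_nil_right_le (u : List α) : editDist u [] ≤ u.length := by
  induction u with
  | nil => simp [editDist_self]
  | cons a t ih =>
    have h := editDist_adj (adj_insert (α := α) [] t a)
    simp only [List.nil_append] at h
    have h2 := editDist_triangle (a :: t) t []
    rw [editDist_comm (a :: t) t, h] at h2
    simp only [List.length_cons]
    omega

theorem editDist_nil_left_le (u : List α) : editDist [] u ≤ u.length := by
  rw [editDist_comm]; exact editDist_nil_right_le u

/-- Words of equal length: at most `length` substitutions. -/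
theorem editDist_le_length {u v : List α} (h : u.length = v.length) :
    editDist u v ≤ u.length := by
  induction u generalizing v with
  | nil =>
    cases v with
    | nil => simp [editDist_self]
    | cons b t => simp at h
  | cons a t ih =>
    cases v with
    | nil => simp at h
    | cons b s =>
      have h' : t.length = s.length := by simpa using h
      have h1 := editDist_append [a] t [b] s
      have h2 := ih h'
      have h3 : editDist [a] [b] ≤ 1 := by
        by_cases hab : a = b
        · subst hab; simp [editDist_self]
        · have := editDist_adj (adj_subst (α := α) [] [] hab)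
          simpa using this.le
      simp only [List.singleton_append, List.length_cons] at *
      omega



theorem editDist_map_le (f : α → β) (u v : List α) :
    editDist (u.map f) (v.map f) ≤ editDist u v := by
  have := editDist_lipschitz (fun x : List α => x.map f) 1 (fun u v h => ?_) u v
  · simpa using this
  · rw [adj_iff] at h
    obtain ⟨hne, h1⟩ := h
    rcases h1 with (⟨l', r', a, rfl, rfl⟩ | ⟨l', r', a, b, hab, rfl, rfl⟩) |
      (⟨l', r', a, rfl, rfl⟩ | ⟨l', r', a, b, hab, rfl, rfl⟩)
    · have := editDist_adj (adj_insert (l'.map f) (r'.map f) (f a))
      simpa using this.le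
    · by_cases hf : f a = f b
      · simp [hf, editDist_self]
      · have := editDist_adj (adj_subst (l'.map f) (r'.map f) hf)
        simpa using this.le
    · have := editDist_adj (adj_insert (l'.map f) (r'.map f) (f a)).symm
      simpa using this.le
    · by_cases hf : f a = f b
      · simp [hf, editDist_self]
      · have := editDist_adj (adj_subst (l'.map f) (r'.map f) hf).symm
        simpa using this.le

/-- Encoding each letter by a word of length `≤ l` is `l`-Lipschitz. -/
theorem editDist_flatMap_le (code : α → List β) (l : ℕ) (hl : ∀ a, (code a).length = l)
    (u v : List α) : editDist (u.flatMap code) (v.flatMap code) ≤ l * editDist u v := by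
  refine editDist_lipschitz (fun x : List α => x.flatMap code) l (fun u v h => ?_) u v
  have hins : ∀ (l' r' : List α) (a : α),
      editDist ((l' ++ r').flatMap code) ((l' ++ a :: r').flatMap code) ≤ l := by
    intro l' r' a
    have := editDist_append_context (l'.flatMap code) (r'.flatMap code) [] (code a)
    have h2 := editDist_nil_left_le (code a)
    rw [hl] at h2
    simp only [List.flatMap_append, List.flatMap_cons, List.append_nil, List.append_assoc] at this ⊢
    exact this.trans h2
  have hsub : ∀ (l' r' : List α) (a b : α),
      editDist ((l' ++ a :: r').flatMap code) ((l' ++ b :: r').flatMap code) ≤ l := by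
    intro l' r' a b
    have := editDist_append_context (l'.flatMap code) (r'.flatMap code) (code a) (code b)
    have h2 := editDist_le_length (u := code a) (v := code b) (by rw [hl, hl])
    rw [hl] at h2
    simp only [List.flatMap_append, List.flatMap_cons, List.append_assoc] at this ⊢
    exact this.trans h2
  rw [adj_iff] at h
  obtain ⟨hne, h1⟩ := h
  rcases h1 with (⟨l', r', a, rfl, rfl⟩ | ⟨l', r', a, b, hab, rfl, rfl⟩) |
    (⟨l', r', a, rfl, rfl⟩ | ⟨l', r', a, b, hab, rfl, rfl⟩)
  · exact hins l' r' a
  · exact hsub l' r' a b
  · rw [editDist_comm]; exact hins l' r' a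
  · exact hsub l' r' b a


/-- deleting a prefix -/
theorem editDist_append_left (l u : List α) : editDist (l ++ u) u ≤ l.length := by
  have h1 := editDist_append l u [] u
  have h2 := editDist_nil_right_le l
  simp only [List.nil_append, editDist_self] at h1
  omega

/-- deleting a suffix -/
theorem editDist_append_right (l u : List α) : editDist (u ++ l) u ≤ l.length := by
  have h1 := editDist_append u l u []
  have h2 := editDist_nil_right_le l
  simp only [List.append_nil, editDist_self] at h1
  omega

/-- single letters -/
theorem editDist_singleton (a b : α) : editDist [a] [b] ≤ 1 := by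
  simpa using editDist_le_length (u := [a]) (v := [b]) rfl

/-- blockwise bound -/
theorem editDist_flatMap_range_le (b : ℕ) (f g : ℕ → List α) :
    editDist ((List.range b).flatMap f) ((List.range b).flatMap g)
      ≤ ∑ c ∈ Finset.range b, editDist (f c) (g c) := by
  induction b with
  | zero => simp [editDist_self]
  | succ n ih =>
    rw [List.range_succ, List.flatMap_append, List.flatMap_append, Finset.sum_range_succ]
    refine (editDist_append _ _ _ _).trans (Nat.add_le_add ih ?_)
    simp

theorem length_flatMap_range_le (s R : ℕ) (f : ℕ → List α) (hf : ∀ c, (f c).length ≤ R) :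
    ((List.range s).flatMap f).length ≤ s * R := by
  induction s with
  | zero => simp
  | succ n ih =>
    rw [List.range_succ, List.flatMap_append, List.length_append]
    have := hf n
    simp only [List.flatMap_cons, List.flatMap_nil, List.append_nil]
    rw [Nat.succ_mul]
    omega

theorem flatMap_range_add (s b : ℕ) (f : ℕ → List α) :
    (List.range (s + b)).flatMap f
      = (List.range s).flatMap f ++ (List.range b).flatMap fun c => f (c + s) := by
  rw [List.range_add, List.flatMap_append]
  congr 1
  rw [List.flatMap_map]
  congr 1
  funext c
  rw [Nat.add_comm]

/-- shifting a sequence of rows (each of length at most `R`) by `s` rows costs at most `2 s R` -/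
theorem editDist_shift_le (b s R : ℕ) (f : ℕ → List α) (hf : ∀ c, (f c).length ≤ R) :
    editDist ((List.range b).flatMap f) ((List.range b).flatMap fun c => f (c + s))
      ≤ 2 * s * R := by
  have h1 := flatMap_range_add s b f
  have h2 := flatMap_range_add b s f
  rw [Nat.add_comm b s] at h2
  -- `F = first s rows ++ shifted = first b rows ++ last s rows`
  have e1 := editDist_append_left ((List.range s).flatMap f)
    ((List.range b).flatMap fun c => f (c + s))
  have e2 := editDist_append_right ((List.range s).flatMap fun c => f (c + b))
    ((List.range b).flatMap f)
  rw [← h1] at e1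
  rw [← h2] at e2
  have l1 := length_flatMap_range_le s R f hf
  have l2 := length_flatMap_range_le s R (fun c => f (c + b)) (fun c => hf _)
  have h3 := editDist_triangle ((List.range b).flatMap f) ((List.range (s + b)).flatMap f)
    ((List.range b).flatMap fun c => f (c + s))
  rw [editDist_comm ((List.range b).flatMap f) ((List.range (s + b)).flatMap f)] at h3
  have : 2 * s * R = s * R + s * R := by ring
  omega

/-! ### Common sublists -/


end General

end Crest.Agent.R210
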