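import Mathlib
import Crest.Prelude.Def_EditDistance
import Crest.Agent.R210.Edit

-- ▼ part R210/Code
section

/-!
# Binary code with synchronisation: the edit distance of coded words dominates
`length - LCS` of the words.
Codeword: `1 1 0 b₁ 0 b₂ 0 ... b_h 0` (length `2h+3`); "11" occurs only at starts of codewords.
-/

set_option autoImplicit false
open Crest.GeometryTopology.EditDistance

namespace Crest.Agent.R210

namespace CodeAux

/-- No nonempty suffix of `w` can be continued to a word starting with `11`. -/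
def Good (w : List Bool) : Prop :=
  ∀ s z : List Bool, s <:+ w → s ≠ [] → ¬ [true, true] <+: s ++ z

theorem good_nil : Good [] := by
  intro s z hs hne
  exact absurd (List.suffix_nil.mp hs) hne

theorem Good.cons {x : Bool} {w : List Bool} (hx : ∀ z, ¬ [true, true] <+: (x :: w) ++ z)
    (hw : Good w) : Good (x :: w) := by
  intro s z hs hne
  rcases List.suffix_cons_iff.mp hs with rfl | h
  · exact hx z
  · exact hw s z h hne

theorem Good.of_suffix {w w' : List Bool} (h : Good w) (hs : w' <:+ w) : Good w' :=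
  fun s z hs' hne => h s z (hs'.trans hs) hne

theorem prefix_append_cases {p l z : List Bool} (h : p <+: l ++ z) :
    p <+: l ∨ ∃ z0, p = l ++ z0 ∧ z0 <+: z := by
  rcases le_total p.length l.length with hle | hle
  · exact Or.inl (List.prefix_of_prefix_length_le h (List.prefix_append l z) hle)
  · right
    obtain ⟨z0, hz0⟩ := List.prefix_of_prefix_length_le (List.prefix_append l z) h hle
    refine ⟨z0, hz0.symm, ?_⟩
    rw [← hz0] at h
    exact (List.prefix_append_right_inj l).mp h

def body (c : List Bool) : List Bool := c.flatMap fun b => [b, false]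

theorem good_body (c : List Bool) : Good (body c) := by
  induction c with
  | nil => exact good_nil
  | cons b c ih =>
    have : body (b :: c) = b :: false :: body c := by simp [body]
    rw [this]
    refine Good.cons ?_ (Good.cons ?_ ih)
    · intro z h
      simp [List.cons_prefix_cons] at h
    · intro z h
      simp [List.cons_prefix_cons] at h

def word (c : List Bool) : List Bool := true :: true :: false :: body c

theorem length_body (c : List Bool) : (body c).length = 2 * c.length := by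
  induction c with
  | nil => simp [body]
  | cons b c ih =>
    have : body (b :: c) = b :: false :: body c := by simp [body]
    rw [this]
    simp [ih]
    ring

theorem body_injective : Function.Injective body := by
  intro c
  induction c with
  | nil =>
    intro c' h
    cases c' with
    | nil => rfl
    | cons b c' => simp [body] at h
  | cons b c ih =>
    intro c' h
    cases c' with
    | nil => simp [body] at h
    | cons b' c' =>
      have h1 : body (b :: c) = b :: false :: body c := by simp [body]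
      have h2 : body (b' :: c') = b' :: false :: body c' := by simp [body]
      rw [h1, h2] at h
      simp only [List.cons.injEq, true_and] at h
      rw [h.1, ih h.2]

/-- A synchronising code. -/
structure Sync {α : Type} (enc : α → List Bool) (L : ℕ) : Prop where
  len : ∀ a, (enc a).length = L
  start : ∀ a, [true, true] <+: enc a
  good : ∀ a, Good (enc a).tail
  inj : Function.Injective enc

section

variable {α : Type} (enc : α → List Bool) {L : ℕ}

open Classical in
/-- The letter whose codeword is a prefix of `u`, if any. -/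
noncomputable def pre (u : List Bool) : Option α :=
  if h : ∃ a, enc a <+: u then some h.choose else none

variable {enc}

theorem pre_eq_some (S : Sync enc L) {a : α} {u : List Bool} (h : enc a <+: u) :
    pre enc u = some a := by
  have hex : ∃ a, enc a <+: u := ⟨a, h⟩
  unfold pre
  rw [dif_pos hex]
  have h1 := hex.choose_spec
  have h2 : enc hex.choose <+: enc a :=
    List.prefix_of_prefix_length_le h1 h (by rw [S.len, S.len])
  have h3 := h2.eq_of_length (by rw [S.len, S.len])
  rw [S.inj h3]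

theorem pre_prefix {a : α} {u : List Bool} (h : pre enc u = some a) : enc a <+: u := by
  unfold pre at h
  split_ifs at h with hex
  · have h1 := hex.choose_spec
    rw [Option.some.injEq] at h
    rwa [h] at h1

theorem pre_none (S : Sync enc L) {u : List Bool} (h : ¬ [true, true] <+: u) :
    pre enc u = none := by
  cases hp : pre enc u with
  | none => rfl
  | some a => exact absurd ((S.start a).trans (pre_prefix hp)) h

variable (enc)

/-- The letters read in a binary word. -/
noncomputable def dec : List Bool → List α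
  | [] => []
  | b :: u => (pre enc (b :: u)).toList ++ dec u

/-- The letters whose codewords start inside `l` when `l` is followed by `z`. -/
noncomputable def part : List Bool → List Bool → List α
  | [], _ => []
  | b :: l, z => (pre enc ((b :: l) ++ z)).toList ++ part l z

variable {enc}

theorem dec_append (l z : List Bool) : dec enc (l ++ z) = part enc l z ++ dec enc z := by
  induction l with
  | nil => simp [part]
  | cons b l ih => simp [part, dec, ih]

theorem part_mono (S : Sync enc L) (l z z' : List Bool) :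
    (part enc l z).Sublist (part enc l (z ++ z')) := by
  induction l with
  | nil => simp [part]
  | cons b l ih =>
    simp only [part]
    refine List.Sublist.append ?_ ih
    cases hp : pre enc (b :: l ++ z) with
    | none => simp
    | some a =>
      have : pre enc (b :: l ++ (z ++ z')) = some a := by
        apply pre_eq_some S
        rw [← List.append_assoc]
        exact (pre_prefix hp).trans (List.prefix_append _ _)
      rw [this]

theorem part_good (S : Sync enc L) (l z0 z1 : List Bool) (h : Good (l ++ z0)) :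
    part enc l (z0 ++ z1) = [] := by
  induction l with
  | nil => simp [part]
  | cons b l ih =>
    simp only [part]
    rw [ih (h.of_suffix (List.suffix_cons b (l ++ z0)))]
    have h1 : ¬ [true, true] <+: (b :: l ++ z0) ++ z1 :=
      h _ z1 (List.suffix_refl _) (by simp)
    rw [← List.append_assoc, pre_none S h1]
    rfl

theorem dec_enc (S : Sync enc L) (a : α) (z : List Bool) :
    dec enc (enc a ++ z) = a :: dec enc z := by
  have hs := S.start a
  obtain ⟨x, hx⟩ : ∃ x, enc a = true :: x := by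
    obtain ⟨t, ht⟩ := hs
    exact ⟨true :: t, by rw [← ht]; rfl⟩
  have hg := S.good a
  rw [hx, List.tail_cons] at hg
  have hp : pre enc (true :: (x ++ z)) = some a := by
    apply pre_eq_some S
    rw [hx, ← List.cons_append]
    exact List.prefix_append _ _
  rw [hx, List.cons_append, dec, hp, dec_append]
  have h2 := part_good S x [] z (by simpa using hg)
  rw [List.nil_append] at h2
  rw [h2]
  simp

theorem dec_flatMap (S : Sync enc L) (u : List α) : dec enc (u.flatMap enc) = u := by
  induction u with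
  | nil => simp [dec]
  | cons a u ih => rw [List.flatMap_cons, dec_enc S, ih]

/-- At most one codeword starts in `l`, but does not end in `l`. -/
theorem part_split (S : Sync enc L) (l z : List Bool) :
    ∃ t : List α, t.length ≤ 1 ∧ part enc l z = part enc l [] ++ t := by
  induction l with
  | nil => exact ⟨[], by simp, by simp [part]⟩
  | cons b l ih =>
    obtain ⟨t, ht, heq⟩ := ih
    cases hp : pre enc (b :: l ++ z) with
    | none =>
      have h0 : pre enc (b :: l ++ []) = none := by
        cases hq : pre enc (b :: l ++ []) with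
        | none => rfl
        | some a =>
          have h1 := pre_prefix hq
          rw [List.append_nil] at h1
          have := pre_eq_some S (h1.trans (List.prefix_append _ z))
          rw [hp] at this
          exact absurd this (by simp)
      refine ⟨t, ht, ?_⟩
      simp only [part]
      rw [hp, h0, heq]
      simp
    | some a =>
      have hpre := pre_prefix hp
      by_cases hin : enc a <+: b :: l
      · have h0 : pre enc (b :: l ++ []) = some a := by
          rw [List.append_nil]; exact pre_eq_some S hin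
        refine ⟨t, ht, ?_⟩
        simp only [part]
        rw [hp, h0, heq]
        simp
      · obtain ⟨z0, hz0, hz⟩ : ∃ z0, enc a = (b :: l) ++ z0 ∧ z0 <+: z := by
          rcases prefix_append_cases hpre with h | ⟨z0, h1, h2⟩
          · exact absurd h hin
          · exact ⟨z0, h1, h2⟩
        obtain ⟨z1, rfl⟩ := hz
        have hg := S.good a
        rw [hz0, List.cons_append, List.tail_cons] at hg
        have h1 := part_good S l z0 z1 hg
        have h2 : part enc l [] = [] := by
          have := part_mono S l [] (z0 ++ z1)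
          rw [List.nil_append, h1] at this
          exact List.sublist_nil.mp this
        have h0 : pre enc (b :: l ++ []) = none := by
          cases hq : pre enc (b :: l ++ []) with
          | none => rfl
          | some a' =>
            have h3 := pre_prefix hq
            rw [List.append_nil] at h3
            have := pre_eq_some S (h3.trans (List.prefix_append _ (z0 ++ z1)))
            rw [hp, Option.some.injEq] at this
            exact absurd (this ▸ h3) hin
        refine ⟨[a], by simp, ?_⟩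
        simp only [part]
        rw [hp, h0, h1, h2]
        simp

/-- The same with one additional position. -/
theorem part_split' (S : Sync enc L) (l : List Bool) (c : Bool) (r : List Bool) :
    ∃ t : List α, t.length ≤ 1 ∧
      part enc l (c :: r) ++ (pre enc (c :: r)).toList = part enc l [] ++ t := by
  induction l with
  | nil =>
    refine ⟨(pre enc (c :: r)).toList, ?_, by simp [part]⟩
    cases pre enc (c :: r) <;> simp
  | cons b l ih =>
    obtain ⟨t, ht, heq⟩ := ih
    cases hp : pre enc (b :: l ++ c :: r) with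
    | none =>
      have h0 : pre enc (b :: l ++ []) = none := by
        cases hq : pre enc (b :: l ++ []) with
        | none => rfl
        | some a =>
          have h1 := pre_prefix hq
          rw [List.append_nil] at h1
          have := pre_eq_some S (h1.trans (List.prefix_append _ (c :: r)))
          rw [hp] at this
          exact absurd this (by simp)
      refine ⟨t, ht, ?_⟩
      simp only [part]
      rw [hp, h0, Option.toList_none, List.nil_append, List.nil_append, heq]
    | some a =>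
      have hpre := pre_prefix hp
      by_cases hin : enc a <+: b :: l
      · have h0 : pre enc (b :: l ++ []) = some a := by
          rw [List.append_nil]; exact pre_eq_some S hin
        refine ⟨t, ht, ?_⟩
        simp only [part]
        rw [hp, h0, List.append_assoc, heq, List.append_assoc]
      · obtain ⟨z0, hz0, hz⟩ : ∃ z0, enc a = (b :: l) ++ z0 ∧ z0 <+: c :: r := by
          rcases prefix_append_cases hpre with h | ⟨z0, h1, h2⟩
          · exact absurd h hin
          · exact ⟨z0, h1, h2⟩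
        have hz0ne : z0 ≠ [] := by
          rintro rfl
          apply hin
          rw [hz0, List.append_nil]
        obtain ⟨z1, hz1⟩ := hz
        have hg := S.good a
        rw [hz0, List.cons_append, List.tail_cons] at hg
        have h1 := part_good S l z0 z1 hg
        rw [hz1] at h1
        have hpc : pre enc (c :: r) = none := by
          rw [← hz1]
          exact pre_none S (hg z0 z1 (List.suffix_append _ _) hz0ne)
        have h2 : part enc l [] = [] := by
          have := part_mono S l [] (c :: r)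
          rw [List.nil_append, h1] at this
          exact List.sublist_nil.mp this
        have h0 : pre enc (b :: l ++ []) = none := by
          cases hq : pre enc (b :: l ++ []) with
          | none => rfl
          | some a' =>
            have h3 := pre_prefix hq
            rw [List.append_nil] at h3
            have := pre_eq_some S (h3.trans (List.prefix_append _ (c :: r)))
            rw [hp, Option.some.injEq] at this
            exact absurd (this ▸ h3) hin
        refine ⟨[a], by simp, ?_⟩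
        simp only [part]
        rw [hp, h0, h1, h2, hpc]
        simp

theorem dec_split (S : Sync enc L) (l w r : List Bool) (hw : w.length ≤ 1) :
    ∃ t : List α, t.length ≤ 1 ∧ dec enc (l ++ w ++ r) = part enc l [] ++ t ++ dec enc r := by
  match w, hw with
  | [], _ =>
    obtain ⟨t, ht, h⟩ := part_split S l r
    exact ⟨t, ht, by rw [List.append_nil, dec_append, h]⟩
  | [c], _ =>
    obtain ⟨t, ht, h⟩ := part_split' S l c r
    refine ⟨t, ht, ?_⟩
    rw [← h, List.append_assoc, dec_append]
    simp [dec]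

theorem sublist_dec (S : Sync enc L) (l w r : List Bool) :
    (part enc l [] ++ dec enc r).Sublist (dec enc (l ++ w ++ r)) := by
  rw [List.append_assoc, dec_append]
  refine List.Sublist.append ?_ ?_
  · have := part_mono S l [] (w ++ r)
    rwa [List.nil_append] at this
  · rw [dec_append]
    exact List.sublist_append_right _ _

theorem step (S : Sync enc L) (l w w' r : List Bool) (hw : w.length ≤ 1) (s : List α)
    (hs : s.Sublist (dec enc (l ++ w ++ r))) :
    ∃ s' : List α, s'.Sublist s ∧ s'.Sublist (dec enc (l ++ w' ++ r)) ∧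
      s.length ≤ s'.length + 1 := by
  obtain ⟨t, ht, h⟩ := dec_split S l w r hw
  rw [h] at hs
  obtain ⟨s12, s3, rfl, h12, h3⟩ := List.sublist_append_iff.mp hs
  obtain ⟨s1, s2, rfl, h1, h2⟩ := List.sublist_append_iff.mp h12
  refine ⟨s1 ++ s3, ?_, (h1.append h3).trans (sublist_dec S l w' r), ?_⟩
  · exact (List.sublist_append_left s1 s2).append (List.Sublist.refl s3)
  · have := h2.length_le
    simp only [List.length_append]
    omega

end

end CodeAux

open CodeAux in
theorem sync_lcs {α : Type} {enc : α → List Bool} {L : ℕ} (S : Sync enc L) (u v : List α) :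
    ∃ w : List α, w.Sublist u ∧ w.Sublist v ∧
      u.length ≤ w.length + editDist (u.flatMap enc) (v.flatMap enc) := by
  obtain ⟨p, hp⟩ :=
    (editGraph_connected.preconnected (u.flatMap enc) (v.flatMap enc)).exists_walk_length_eq_dist
  have key : ∀ (x y : List Bool) (q : (editGraph Bool).Walk x y) (k : ℕ),
      (∃ w : List α, w.Sublist u ∧ w.Sublist (dec enc x) ∧ u.length ≤ w.length + k) →
      ∃ w : List α, w.Sublist u ∧ w.Sublist (dec enc y) ∧ u.length ≤ w.length + (k + q.length) := by
    intro x y q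
    induction q with
    | nil => intro k hk; simpa using hk
    | @cons x x' y hadj q ih =>
      rintro k ⟨w, h1, h2, h3⟩
      have hstep : ∃ w' : List α, w'.Sublist u ∧ w'.Sublist (dec enc x') ∧
          u.length ≤ w'.length + (k + 1) := by
        have hcase : ∃ l r m m' : List Bool, m.length ≤ 1 ∧ x = l ++ m ++ r ∧ x' = l ++ m' ++ r := by
          obtain ⟨_, h | h⟩ := hadj
          · rcases h with ⟨l, r, a, h1, h2⟩ | ⟨l, r, a, b, hab, h1, h2⟩
            · exact ⟨l, r, [], [a], by simp, by simp [h1], by simp [h2]⟩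
            · exact ⟨l, r, [a], [b], by simp, by simp [h1], by simp [h2]⟩
          · rcases h with ⟨l, r, a, h1, h2⟩ | ⟨l, r, a, b, hab, h1, h2⟩
            · exact ⟨l, r, [a], [], by simp, by simp [h2], by simp [h1]⟩
            · exact ⟨l, r, [b], [a], by simp, by simp [h2], by simp [h1]⟩
        obtain ⟨l, r, m, m', hm, rfl, rfl⟩ := hcase
        obtain ⟨w', h4, h5, h6⟩ := step S l m m' r hm w h2
        exact ⟨w', h4.trans h1, h5, by omega⟩
      have := ih (k + 1) hstep
      obtain ⟨w', h4, h5, h6⟩ := this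
      refine ⟨w', h4, h5, ?_⟩
      rw [SimpleGraph.Walk.length_cons]
      omega
  obtain ⟨w, h1, h2, h3⟩ := key _ _ p 0
    ⟨u, List.Sublist.refl _, by rw [dec_flatMap S], by simp⟩
  rw [dec_flatMap S] at h2
  refine ⟨w, h1, h2, ?_⟩
  rw [hp, Nat.zero_add] at h3
  exact h3

theorem exists_code (α : Type) [Fintype α] (h : ℕ) (hcard : Fintype.card α ≤ 2 ^ h) :
    ∃ enc : α → List Bool, (∀ a, (enc a).length = 2 * h + 3) ∧
      ∀ u v : List α, ∃ w : List α, w.Sublist u ∧ w.Sublist v ∧
        u.length ≤ w.length + editDist (u.flatMap enc) (v.flatMap enc) := by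
  have hc : Fintype.card α ≤ Fintype.card (Fin h → Bool) := by simpa using hcard
  obtain ⟨e⟩ := Function.Embedding.nonempty_of_card_le hc
  let enc : α → List Bool := fun a => CodeAux.word (List.ofFn (e a))
  have S : CodeAux.Sync enc (2 * h + 3) := by
    refine ⟨?_, ?_, ?_, ?_⟩
    · intro a
      simp [enc, CodeAux.word, CodeAux.length_body]
    · intro a
      simp [enc, CodeAux.word]
    · intro a
      have hb := CodeAux.good_body (List.ofFn (e a))
      show CodeAux.Good (true :: false :: CodeAux.body (List.ofFn (e a)))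
      refine CodeAux.Good.cons ?_ (CodeAux.Good.cons ?_ hb)
      · intro z h
        simp [List.cons_prefix_cons] at h
      · intro z h
        simp [List.cons_prefix_cons] at h
    · intro a a' haa
      simp only [enc, CodeAux.word, List.cons.injEq, true_and] at haa
      have h1 := CodeAux.body_injective haa
      exact e.injective (List.ofFn_injective h1)
  exact ⟨enc, S.len, fun u v => sync_lcs S u v⟩

end Crest.Agent.R210
private theorem rz_1d7ff8a444 : type_of% @_root_.Crest.Agent.R210.CodeAux.dec.eq_def := @_root_.Crest.Agent.R210.CodeAux.dec.eq_def -- L135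
private theorem rz_fc05a0b0d4 : type_of% @_root_.Crest.Agent.R210.CodeAux.dec.eq_1 := @_root_.Crest.Agent.R210.CodeAux.dec.eq_1 -- L135
private theorem rz_e996045512 : type_of% @_root_.Crest.Agent.R210.CodeAux.part.eq_def := @_root_.Crest.Agent.R210.CodeAux.part.eq_def -- L140
private theorem rz_8741970cff : type_of% @_root_.Crest.Agent.R210.CodeAux.part.eq_1 := @_root_.Crest.Agent.R210.CodeAux.part.eq_1 -- L140
end

-- ▼ part R210/Grid
section

set_option autoImplicit false

/-!
# R210 / Grid

The "far" step of the hierarchical construction: upper bound for the length of a common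
subsequence of two concatenations of `b` rows of `m` blocks, blocks of different columns having
disjoint alphabets, and most columns of each diagonal losing a constant proportion.
-/

namespace Crest.Agent.R210.Grid

variable {α : Type*}

/-- One step of the block recursion for common sublists. -/
theorem common_step {S A B X Y : List α} (h1 : S.Sublist (A ++ X)) (h2 : S.Sublist (B ++ Y)) :
    ∃ S1 S2 : List α, S = S1 ++ S2 ∧ S1.Sublist A ∧ S1.Sublist B ∧
      ((S2.Sublist X ∧ S2.Sublist (B ++ Y)) ∨ (S2.Sublist (A ++ X) ∧ S2.Sublist Y)) := by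
  obtain ⟨a, x, rfl, ha, hx⟩ := List.sublist_append_iff.1 h1
  obtain ⟨c, y, hcy, hc, hy⟩ := List.sublist_append_iff.1 h2
  rcases List.append_eq_append_iff.1 hcy with ⟨t, ht1, ht2⟩ | ⟨t, ht1, ht2⟩
  · -- c = a ++ t, x = t ++ y
    refine ⟨a, x, rfl, ha, ?_, Or.inl ⟨hx, ?_⟩⟩
    · exact (List.sublist_append_left a t).trans (ht1 ▸ hc)
    · subst ht2
      refine List.Sublist.append ?_ hy
      exact (List.sublist_append_right a t).trans (ht1 ▸ hc)
  · -- a = c ++ t, y = t ++ x
    refine ⟨c, t ++ x, ?_, ?_, hc, Or.inr ⟨?_, ?_⟩⟩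
    · rw [ht1, List.append_assoc]
    · exact (List.sublist_append_left c t).trans (ht1 ▸ ha)
    · refine List.Sublist.append ?_ hx
      exact (List.sublist_append_right c t).trans (ht1 ▸ ha)
    · exact ht2 ▸ hy

/-- Maximal total gain of a lattice path with `s` unit steps starting at `(j, j')`; the gain of a
step is the value of `g` at its starting point. -/
def G (g : ℕ → ℕ → ℕ) : ℕ → ℕ → ℕ → ℕ
  | 0, _, _ => 0
  | s + 1, j, j' => g j j' + max (G g s (j + 1) j') (G g s j (j' + 1))


/-- Common sublists of two concatenations of blocks are controlled by lattice paths. -/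
theorem length_le_G (g : ℕ → ℕ → ℕ) (U V : ℕ → List α) (N N' : ℕ)
    (hg : ∀ j < N, ∀ j' < N', ∀ S : List α, S.Sublist (U j) → S.Sublist (V j') →
      S.length ≤ g j j') :
    ∀ (s n n' j j' : ℕ), n + n' = s → j + n = N → j' + n' = N' → ∀ S : List α,
      S.Sublist ((List.range' j n).flatMap U) → S.Sublist ((List.range' j' n').flatMap V) →
      S.length ≤ G g s j j' := by
  intro s
  induction s with
  | zero =>
    intro n n' j j' h _ _ S h1 _
    have hn : n = 0 := by omega
    subst hn
    simp at h1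
    simp [h1]
  | succ s ih =>
    intro n n' j j' h hN hN' S h1 h2
    rcases n with _ | n
    · simp at h1
      simp [h1]
    rcases n' with _ | n'
    · simp at h2
      simp [h2]
    have e1 : (List.range' j (n + 1)).flatMap U
        = U j ++ (List.range' (j + 1) n).flatMap U := by
      rw [List.range'_succ]; simp
    have e2 : (List.range' j' (n' + 1)).flatMap V
        = V j' ++ (List.range' (j' + 1) n').flatMap V := by
      rw [List.range'_succ]; simp
    rw [e1] at h1
    rw [e2] at h2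
    obtain ⟨S1, S2, rfl, ha, hb, hc⟩ := common_step h1 h2
    have hS1 : S1.length ≤ g j j' := hg j (by omega) j' (by omega) S1 ha hb
    rw [G, List.length_append]
    rcases hc with ⟨hx, hy⟩ | ⟨hx, hy⟩
    · rw [← e2] at hy
      have := ih n (n' + 1) (j + 1) j' (by omega) (by omega) (by omega) S2 hx hy
      have h3 := le_max_left (G g s (j + 1) j') (G g s j (j' + 1))
      omega
    · rw [← e1] at hx
      have := ih (n + 1) n' j (j' + 1) (by omega) (by omega) (by omega) S2 hx hy
      have h3 := le_max_right (G g s (j + 1) j') (G g s j (j' + 1))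
      omega

/-- Splitting a path in two. -/
theorem G_add_le (g : ℕ → ℕ → ℕ) (s' W : ℕ) (hW : ∀ x y, G g s' x y ≤ W) :
    ∀ s j j', G g (s + s') j j' ≤ G g s j j' + W := by
  intro s
  induction s with
  | zero => intro j j'; simpa [G] using hW j j'
  | succ s ih =>
    intro j j'
    have e : s + 1 + s' = (s + s') + 1 := by omega
    rw [e, G, G]
    have h1 := ih (j + 1) j'
    have h2 := ih j (j' + 1)
    omega

/-- Splitting a path in `b` windows. -/
theorem G_mul_le (g : ℕ → ℕ → ℕ) (s' W : ℕ) (hW : ∀ x y, G g s' x y ≤ W) :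
    ∀ b j j', G g (b * s') j j' ≤ b * W := by
  intro b
  induction b with
  | zero => intro j j'; simp [G]
  | succ b ih =>
    intro j j'
    have h1 := G_add_le g s' W hW (b * s') j j'
    have h2 := ih j j'
    have e : (b + 1) * s' = b * s' + s' := by ring
    rw [e]
    calc G g (b * s' + s') j j' ≤ G g (b * s') j j' + W := h1
      _ ≤ b * W + W := by omega
      _ = (b + 1) * W := by ring

/-- An optimal path: `x t` is the horizontal displacement after `t` steps. -/
theorem exists_path (g : ℕ → ℕ → ℕ) :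
    ∀ s j j', ∃ x : ℕ → ℕ, x 0 = 0 ∧ (∀ t, x (t + 1) = x t ∨ x (t + 1) = x t + 1) ∧
      G g s j j' = ∑ t ∈ Finset.range s, g (j + x t) (j' + (t - x t)) := by
  intro s
  induction s with
  | zero =>
    intro j j'
    exact ⟨fun _ => 0, rfl, fun t => Or.inl rfl, by simp [G]⟩
  | succ s ih =>
    intro j j'
    rcases le_total (G g s (j + 1) j') (G g s j (j' + 1)) with h | h
    · obtain ⟨x, hx0, hx1, hx2⟩ := ih j (j' + 1)
      have hle : ∀ t, x t ≤ t := by
        intro t
        induction t with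
        | zero => omega
        | succ t iht => rcases hx1 t with h | h <;> omega
      refine ⟨fun t => x (t - 1), by simpa using hx0, ?_, ?_⟩
      · intro t
        rcases t with _ | t
        · left; simp
        · simpa using hx1 t
      · rw [G, max_eq_right h, hx2, Finset.sum_range_succ', add_comm]
        congr 1
        · apply Finset.sum_congr rfl
          intro t _
          have := hle t
          simp only [Nat.add_sub_cancel]
          congr 1
          omega
        · simp [hx0]
    · obtain ⟨x, hx0, hx1, hx2⟩ := ih (j + 1) j'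
      have hle : ∀ t, x t ≤ t := by
        intro t
        induction t with
        | zero => omega
        | succ t iht => rcases hx1 t with h | h <;> omega
      refine ⟨fun t => if t = 0 then 0 else x (t - 1) + 1, by simp, ?_, ?_⟩
      · intro t
        rcases t with _ | t
        · right; simp [hx0]
        · simpa using hx1 t
      · rw [G, max_eq_left h, hx2, Finset.sum_range_succ', add_comm]
        congr 1
        · apply Finset.sum_congr rfl
          intro t _
          have := hle t
          simp only [Nat.add_sub_cancel, Nat.add_eq_zero_iff, one_ne_zero, and_false, if_false]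
          congr 1 <;> omega

/-- A set of natural numbers in `[lo, hi]` without two consecutive elements. -/
theorem card_no_adj : ∀ (n lo : ℕ) (A : Finset ℕ), (∀ t ∈ A, lo ≤ t ∧ t < lo + n) →
    (∀ t ∈ A, t + 1 ∉ A) → 2 * A.card ≤ n + 1 := by
  intro n
  induction n using Nat.strong_induction_on with
  | _ n ih =>
    intro lo A hA hadj
    rcases n with _ | n
    · have : A = ∅ := by
        apply Finset.eq_empty_of_forall_notMem
        intro t ht
        have := hA t ht
        omega
      simp [this]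
    · by_cases h : lo ∈ A
      · rcases n with _ | n
        · have : A ⊆ {lo} := by
            intro t ht
            have := hA t ht
            simp; omega
          have := Finset.card_le_card this
          simp at this
          omega
        · have h1 := ih n (by omega) (lo + 2) (A.erase lo) (by
            intro t ht
            have h2 := hA t (Finset.mem_of_mem_erase ht)
            have h3 : t ≠ lo := Finset.ne_of_mem_erase ht
            have h4 : t ≠ lo + 1 := by
              rintro rfl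
              exact hadj lo h (Finset.mem_of_mem_erase ht)
            omega) (by
            intro t ht ht'
            exact hadj t (Finset.mem_of_mem_erase ht) (Finset.mem_of_mem_erase ht'))
          have h5 := Finset.card_erase_add_one h
          omega
      · have h1 := ih n (by omega) (lo + 1) A (by
            intro t ht
            have h2 := hA t ht
            have h3 : t ≠ lo := by rintro rfl; exact h ht
            omega) hadj
        omega

/-- The window bound: `2 m` steps of a lattice path gain at most `(1 - κ/4) m l`. -/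
theorem window (m l : ℕ) (κ : ℝ) (hm : 6 ≤ m) (hκ0 : 0 ≤ κ) (hκ1 : κ ≤ 1) (g : ℕ → ℕ → ℕ)
    (bad : ℤ → Finset ℕ)
    (hbad : ∀ k, 2 * (bad k).card ≤ m)
    (h0 : ∀ j j', j % m ≠ j' % m → g j j' = 0)
    (h1 : ∀ j j', g j j' ≤ l)
    (h2 : ∀ j j', j % m = j' % m → j % m ∉ bad (((j' / m : ℕ) : ℤ) - ((j / m : ℕ) : ℤ)) →
      (g j j' : ℝ) ≤ (1 - κ) * l) (j j' : ℕ) :
    (G g (2 * m) j j' : ℝ) ≤ (1 - κ / 4) * (m * l) := by
  obtain ⟨x, hx0, hx1, hx2⟩ := exists_path g (2 * m) j j'
  have hle : ∀ t, x t ≤ t := by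
    intro t
    induction t with
    | zero => omega
    | succ t iht => rcases hx1 t with h | h <;> omega
  have hlip : ∀ t u, t ≤ u → x t ≤ x u ∧ x u ≤ x t + (u - t) := by
    intro t u htu
    induction u, htu using Nat.le_induction with
    | base => omega
    | succ u hu ihu => rcases hx1 u with h | h <;> omega
  set A : Finset ℕ := (Finset.range (2 * m)).filter
    (fun t => (j + x t) % m = (j' + (t - x t)) % m) with hA
  have hsum : G g (2 * m) j j' = ∑ t ∈ A, g (j + x t) (j' + (t - x t)) := by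
    rw [hx2, hA, Finset.sum_filter]
    apply Finset.sum_congr rfl
    intro t _
    split_ifs with h
    · rfl
    · exact h0 _ _ h
  have hmem : ∀ t, t ∈ A → t < 2 * m ∧ (j + x t) % m = (j' + (t - x t)) % m := by
    intro t ht
    rw [hA, Finset.mem_filter, Finset.mem_range] at ht
    exact ht
  by_cases hcase : ∀ t ∈ A, ∀ u ∈ A, (2 * (x t) + u = 2 * (x u) + t)
  · -- one diagonal
    by_cases hne : A.Nonempty
    · obtain ⟨t0, ht0⟩ := hne
      set k : ℤ := (((j' + (t0 - x t0)) / m : ℕ) : ℤ) - (((j + x t0) / m : ℕ) : ℤ) with hk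
      have hkall : ∀ t ∈ A,
          (((j' + (t - x t)) / m : ℕ) : ℤ) - (((j + x t) / m : ℕ) : ℤ) = k := by
        intro t ht
        have e1 := hcase t ht t0 ht0
        have e2 := (hmem t ht).2
        have e3 := (hmem t0 ht0).2
        have l1 := hle t
        have l2 := hle t0
        have d1 := Nat.div_add_mod (j' + (t - x t)) m
        have d2 := Nat.div_add_mod (j + x t) m
        have d3 := Nat.div_add_mod (j' + (t0 - x t0)) m
        have d4 := Nat.div_add_mod (j + x t0) m
        have hmz : (m : ℤ) ≠ 0 := by positivity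
        apply mul_left_cancel₀ hmz
        rw [hk]
        zify [l1, l2] at *
        linarith
      -- injectivity of the columns
      have hinj : Set.InjOn (fun t => (j + x t) % m) (A : Set ℕ) := by
        have key : ∀ t ∈ A, ∀ u ∈ A, t ≤ u → (j + x t) % m = (j + x u) % m → t = u := by
          intro t ht u hu htu e
          have e1 := hcase t ht u hu
          have b1 := (hmem t ht).1
          have b2 := (hmem u hu).1
          have l1 := hlip t u htu
          have : x t = x u := by
            have hd : m ∣ (j + x u) - (j + x t) :=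
              (Nat.modEq_iff_dvd' (by omega)).1 e
            have hd2 : m ∣ x u - x t := by
              have : (j + x u) - (j + x t) = x u - x t := by omega
              rwa [this] at hd
            have hlt : x u - x t < m := by omega
            have := Nat.eq_zero_of_dvd_of_lt hd2 hlt
            omega
          omega
        intro t ht u hu e
        rcases le_total t u with h | h
        · exact key t ht u hu h e
        · exact (key u hu t ht h e.symm).symm
      have hcardA : A.card ≤ m := by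
        have : A.card ≤ (Finset.range m).card := by
          apply Finset.card_le_card_of_injOn _ _ hinj
          intro t _
          simp
          exact Nat.mod_lt _ (by omega)
        simpa using this
      set Ab := A.filter (fun t => (j + x t) % m ∈ bad k) with hAb
      set Ag := A.filter (fun t => (j + x t) % m ∉ bad k) with hAg
      have hcardb : 2 * Ab.card ≤ m := by
        have : Ab.card ≤ (bad k).card := by
          apply Finset.card_le_card_of_injOn (fun t => (j + x t) % m)
          · intro t ht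
            rw [hAb] at ht
            simpa using (Finset.mem_filter.1 ht).2
          · exact hinj.mono (by
              intro t ht
              rw [hAb] at ht
              exact (Finset.mem_filter.1 ht).1)
        have := hbad k
        omega
      have hsplit : Ab.card + Ag.card = A.card := Finset.card_filter_add_card_filter_not _
      have hsplit2 : ∑ t ∈ A, g (j + x t) (j' + (t - x t))
          = ∑ t ∈ Ab, g (j + x t) (j' + (t - x t)) + ∑ t ∈ Ag, g (j + x t) (j' + (t - x t)) :=
        (Finset.sum_filter_add_sum_filter_not A _ _).symm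
      have hb1 : ((∑ t ∈ Ab, g (j + x t) (j' + (t - x t)) : ℕ) : ℝ) ≤ Ab.card * (l : ℝ) := by
        have : ∑ t ∈ Ab, g (j + x t) (j' + (t - x t)) ≤ Ab.card * l := by
          calc ∑ t ∈ Ab, g (j + x t) (j' + (t - x t)) ≤ ∑ t ∈ Ab, l :=
                Finset.sum_le_sum (fun t _ => h1 _ _)
            _ = Ab.card * l := by simp
        exact_mod_cast this
      have hb2 : ((∑ t ∈ Ag, g (j + x t) (j' + (t - x t)) : ℕ) : ℝ)
          ≤ Ag.card * ((1 - κ) * (l : ℝ)) := by
        push_cast
        calc ∑ t ∈ Ag, (g (j + x t) (j' + (t - x t)) : ℝ) ≤ ∑ t ∈ Ag, (1 - κ) * (l : ℝ) := by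
              apply Finset.sum_le_sum
              intro t ht
              rw [hAg, Finset.mem_filter] at ht
              apply h2 _ _ (hmem t ht.1).2
              rw [hkall t ht.1]
              exact ht.2
          _ = Ag.card * ((1 - κ) * (l : ℝ)) := by simp
      rw [hsum, hsplit2, Nat.cast_add]
      have hc1 : (2 : ℝ) * Ab.card ≤ m := by exact_mod_cast hcardb
      have hc2 : (Ab.card : ℝ) + Ag.card ≤ m := by
        have : Ab.card + Ag.card ≤ m := by omega
        exact_mod_cast this
      have hl0 : (0 : ℝ) ≤ l := Nat.cast_nonneg l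
      have hA0 : (0 : ℝ) ≤ Ag.card := Nat.cast_nonneg _
      have hm0 : (0 : ℝ) ≤ m := Nat.cast_nonneg _
      have hfin : (Ab.card : ℝ) + Ag.card * (1 - κ) ≤ (1 - κ / 4) * m := by
        have e1 : (Ag.card : ℝ) * (1 - κ) ≤ (m - Ab.card) * (1 - κ) :=
          mul_le_mul_of_nonneg_right (by linarith) (by linarith)
        have e2 : κ * (2 * Ab.card) ≤ κ * m := mul_le_mul_of_nonneg_left hc1 hκ0
        have e3 : 0 ≤ κ * m := mul_nonneg hκ0 hm0
        nlinarith
      calc _ ≤ (Ab.card : ℝ) * l + Ag.card * ((1 - κ) * (l : ℝ)) := add_le_add hb1 hb2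
        _ = ((Ab.card : ℝ) + Ag.card * (1 - κ)) * l := by ring
        _ ≤ ((1 - κ / 4) * m) * l := mul_le_mul_of_nonneg_right hfin hl0
        _ = (1 - κ / 4) * (m * l) := by ring
    · have : A = ∅ := Finset.not_nonempty_iff_eq_empty.1 hne
      rw [hsum, this]
      simp only [Finset.sum_empty, Nat.cast_zero]
      apply mul_nonneg (by linarith)
      positivity
  · -- two diagonals
    push Not at hcase
    obtain ⟨t, ht, u, hu, hne⟩ := hcase
    -- WLOG t < u
    have key : ∀ t ∈ A, ∀ u ∈ A, t < u → 2 * (x t) + u ≠ 2 * (x u) + t → 2 * A.card ≤ m + 3 := by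
      intro t ht u hu htu hne
      -- minimal u' > t in A with a different diagonal
      have hex : ∃ u, u ∈ A ∧ t < u ∧ 2 * (x t) + u ≠ 2 * (x u) + t := ⟨u, hu, htu, hne⟩
      classical
      set v := Nat.find hex with hv
      obtain ⟨hvA, htv, hvne⟩ := Nat.find_spec hex
      rw [← hv] at hvA htv hvne
      have hmin : ∀ w, w < v → w ∈ A → t < w → 2 * (x t) + w = 2 * (x w) + t := by
        intro w hw hwA htw
        by_contra hcon
        exact Nat.find_min hex hw ⟨hwA, htw, hcon⟩
      -- the last element of A below v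
      have hne2 : (A.filter (fun w => w < v)).Nonempty :=
        ⟨t, Finset.mem_filter.2 ⟨ht, htv⟩⟩
      set w := (A.filter (fun w => w < v)).max' hne2 with hw
      have hwmem : w ∈ A.filter (fun w => w < v) := Finset.max'_mem _ hne2
      obtain ⟨hwA, hwv⟩ := Finset.mem_filter.1 hwmem
      have htw : t ≤ w := Finset.le_max' _ _ (Finset.mem_filter.2 ⟨ht, htv⟩)
      have hdiagw : 2 * (x t) + w = 2 * (x w) + t := by
        rcases Nat.eq_or_lt_of_le htw with h | h
        · rw [← h]
        · exact hmin w hwv hwA h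
      have hgap : ∀ y ∈ A, y ≤ w ∨ v ≤ y := by
        intro y hy
        by_cases h : y < v
        · left; exact Finset.le_max' _ _ (Finset.mem_filter.2 ⟨hy, h⟩)
        · right; omega
      -- v - w ≥ m
      have hvw : w + m ≤ v := by
        have e1 := (hmem w hwA).2
        have e2 := (hmem v hvA).2
        have l1 := hlip w v hwv.le
        have l2 := hle w
        have l3 := hle v
        have hne3 : 2 * (x w) + v ≠ 2 * (x v) + w := by omega
        -- m divides the difference of diagonals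
        have e1' : ((j : ℤ) + x w) % m = ((j' : ℤ) + (w - x w)) % m := by
          have := congrArg (Nat.cast : ℕ → ℤ) e1
          push_cast [l2] at this
          exact this
        have e2' : ((j : ℤ) + x v) % m = ((j' : ℤ) + (v - x v)) % m := by
          have := congrArg (Nat.cast : ℕ → ℤ) e2
          push_cast [l3] at this
          exact this
        have d2 : (m : ℤ) ∣ ((j' : ℤ) + (w - x w)) - ((j : ℤ) + x w) := Int.ModEq.dvd e1'
        have d3 : (m : ℤ) ∣ ((j' : ℤ) + (v - x v)) - ((j : ℤ) + x v) := Int.ModEq.dvd e2'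
        have d4 : (m : ℤ) ∣ ((v : ℤ) - 2 * x v) - ((w : ℤ) - 2 * x w) := by
          have := dvd_sub d3 d2
          have e : ((j' : ℤ) + (v - x v)) - ((j : ℤ) + x v) -
              (((j' : ℤ) + (w - x w)) - ((j : ℤ) + x w))
              = ((v : ℤ) - 2 * x v) - ((w : ℤ) - 2 * x w) := by ring
          rwa [e] at this
        have hnz : ((v : ℤ) - 2 * x v) - ((w : ℤ) - 2 * x w) ≠ 0 := by
          intro h
          apply hne3
          omega
        have hbig := Int.le_of_dvd (abs_pos.2 hnz) ((dvd_abs _ _).2 d4)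
        rcases le_total 0 (((v : ℤ) - 2 * x v) - ((w : ℤ) - 2 * x w)) with h | h
        · rw [abs_of_nonneg h] at hbig
          omega
        · rw [abs_of_nonpos h] at hbig
          omega
      have hadj : ∀ y ∈ A, y + 1 ∉ A := by
        intro y hy hy1
        have e1 := (hmem y hy).2
        have e2 := (hmem (y + 1) hy1).2
        have l2 := hle y
        have l3 := hle (y + 1)
        rcases hx1 y with h | h
        · have e3 : y + 1 - x (y + 1) = (y - x y) + 1 := by omega
          rw [h, e1] at e2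
          rw [show j' + (y + 1 - x y) = (j' + (y - x y)) + 1 by omega] at e2
          have : (m : ℕ) ∣ 1 := by
            have h5 := (Nat.modEq_iff_dvd' (by omega)).1 (e2 : (j' + (y - x y)) ≡ _ [MOD m])
            simpa using h5
          have := Nat.le_of_dvd (by norm_num) this
          omega
        · rw [h, show j' + (y + 1 - (x y + 1)) = j' + (y - x y) by omega, ← e1] at e2
          have : (m : ℕ) ∣ 1 := by
            have h5 := (Nat.modEq_iff_dvd' (by omega)).1
              (e2.symm : (j + x y) ≡ (j + (x y + 1)) [MOD m])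
            have h6 : j + (x y + 1) - (j + x y) = 1 := by omega
            rwa [h6] at h5
          have := Nat.le_of_dvd (by norm_num) this
          omega
      -- count
      have hc1 := card_no_adj (w + 1) 0 (A.filter (fun y => y ≤ w)) (by
        intro y hy
        have := (Finset.mem_filter.1 hy).2
        omega) (by
        intro y hy hy1
        exact hadj y (Finset.mem_filter.1 hy).1 (Finset.mem_filter.1 hy1).1)
      have hc2 := card_no_adj (2 * m - v) v (A.filter (fun y => ¬ y ≤ w)) (by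
        intro y hy
        have h1 := (Finset.mem_filter.1 hy)
        have h2 := hgap y h1.1
        have h3 := (hmem y h1.1).1
        omega) (by
        intro y hy hy1
        exact hadj y (Finset.mem_filter.1 hy).1 (Finset.mem_filter.1 hy1).1)
      have hc3 := Finset.card_filter_add_card_filter_not (s := A) (fun y => y ≤ w)
      have hv2 := (hmem v hvA).1
      omega
    have hcard : 2 * A.card ≤ m + 3 := by
      rcases lt_trichotomy t u with h | h | h
      · exact key t ht u hu h hne
      · subst h; exact absurd rfl hne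
      · exact key u hu t ht h (fun e => hne e.symm)
    have hs : ∑ t ∈ A, g (j + x t) (j' + (t - x t)) ≤ A.card * l := by
      calc ∑ t ∈ A, g (j + x t) (j' + (t - x t)) ≤ ∑ t ∈ A, l :=
            Finset.sum_le_sum (fun t _ => h1 _ _)
        _ = A.card * l := by simp
    rw [hsum]
    have hs' : ((∑ t ∈ A, g (j + x t) (j' + (t - x t)) : ℕ) : ℝ) ≤ A.card * (l : ℝ) := by
      exact_mod_cast hs
    have hcard' : (2 : ℝ) * A.card ≤ m + 3 := by exact_mod_cast hcard
    have hl0 : (0 : ℝ) ≤ l := Nat.cast_nonneg l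
    have hm6 : (6 : ℝ) ≤ m := by exact_mod_cast hm
    have hfin : (A.card : ℝ) ≤ (1 - κ / 4) * m := by nlinarith
    calc _ ≤ (A.card : ℝ) * l := hs'
      _ ≤ ((1 - κ / 4) * m) * l := mul_le_mul_of_nonneg_right hfin hl0
      _ = (1 - κ / 4) * (m * l) := by ring

/-- Double index concatenation as a single one. -/
theorem flatMap_rows (m b : ℕ) (U : ℕ → ℕ → List α) (hm : 0 < m) :
    (List.range b).flatMap (fun c => (List.range m).flatMap (fun i => U c i))
      = (List.range' 0 (b * m)).flatMap (fun j => U (j / m) (j % m)) := by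
  induction b with
  | zero => simp
  | succ b ih =>
    rw [List.range_succ, List.flatMap_append, ih]
    have e : List.range' 0 ((b + 1) * m) = List.range' 0 (b * m) ++ List.range' (b * m) m := by
      rw [add_mul, one_mul]
      have := @List.range'_append 0 (b * m) m 1
      simp only [one_mul, Nat.zero_add] at this
      exact this.symm
    rw [e, List.flatMap_append]
    congr 1
    simp only [List.flatMap_cons, List.flatMap_nil, List.append_nil]
    have e2 : List.range' (b * m) m = (List.range m).map (fun i => b * m + i) := by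
      rw [List.range_eq_range', List.map_add_range']
      simp
    rw [e2, List.flatMap_map]
    apply List.flatMap_congr
    intro i hi
    have hi' : i < m := List.mem_range.1 hi
    have h1 : (b * m + i) / m = b := by
      rw [mul_comm, Nat.mul_add_div hm, Nat.div_eq_of_lt hi']; simp
    have h2 : (b * m + i) % m = i := by
      rw [mul_comm, Nat.mul_add_mod, Nat.mod_eq_of_lt hi']
    rw [h1, h2]

end Crest.Agent.R210.Grid

namespace Crest.Agent.R210

open Crest.Agent.R210.Grid

variable {α : Type}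

/-- every common subsequence of `u` and `v` has length at most `k` -/
def LCSle (u v : List α) (k : ℝ) : Prop :=
  ∀ w : List α, w.Sublist u → w.Sublist v → (w.length : ℝ) ≤ k

/-- Words `U = ∏_{c<b} ∏_{i<m} u c i`, `V = ∏_{c<b} ∏_{i<m} v c i`.  Blocks with different `i`
have no common letter; blocks have length at most `lam`; for each difference `e = c' - c`
(with `|e| < b`) there is a set `F e` of at least `m/2` indices `i` for which the blocks
`u c i`, `v c' i` have a common subsequence of length at most `(1-κ) lam` only. -/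
theorem grid_lcs (m b lam : ℕ) (hm : 6 ≤ m) (κ : ℝ) (hκ0 : 0 ≤ κ) (hκ1 : κ ≤ 1)
    (u v : ℕ → ℕ → List α)
    (hlen : ∀ c < b, ∀ i < m, (u c i).length ≤ lam)
    (hdis : ∀ c < b, ∀ c' < b, ∀ i < m, ∀ i' < m, i ≠ i' → ∀ x ∈ u c i, x ∉ v c' i')
    (F : ℤ → Finset ℕ)
    (hFsub : ∀ e, F e ⊆ Finset.range m)
    (hFcard : ∀ e : ℤ, |e| < b → m ≤ 2 * (F e).card)
    (hfar : ∀ c < b, ∀ c' < b, ∀ i ∈ F ((c' : ℤ) - c),
      LCSle (u c i) (v c' i) ((1 - κ) * lam)) :
    LCSle ((List.range b).flatMap fun c => (List.range m).flatMap fun i => u c i)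
      ((List.range b).flatMap fun c => (List.range m).flatMap fun i => v c i)
      ((1 - κ / 4) * (b * m * lam)) := by
  classical
  intro S h1 h2
  have hm0 : 0 < m := by omega
  rw [flatMap_rows m b _ hm0] at h1 h2
  -- the gain function
  let P : ℕ → ℕ → Prop := fun j j' => j < b * m ∧ j' < b * m ∧ j % m = j' % m
  let bad' : ℤ → Finset ℕ := fun k => if |k| < b then Finset.range m \ F k else ∅
  let Good : ℕ → ℕ → Prop := fun j j' =>
    j % m ∉ bad' (((j' / m : ℕ) : ℤ) - ((j / m : ℕ) : ℤ))
  let g : ℕ → ℕ → ℕ := fun j j' =>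
    if P j j' then (if Good j j' then ⌊(1 - κ) * (lam : ℝ)⌋₊ else lam) else 0
  have hnn : 0 ≤ (1 - κ) * (lam : ℝ) := mul_nonneg (by linarith) (Nat.cast_nonneg _)
  have hfl : ((⌊(1 - κ) * (lam : ℝ)⌋₊ : ℕ) : ℝ) ≤ (1 - κ) * lam := Nat.floor_le hnn
  have hb2 : ∀ k, 2 * (bad' k).card ≤ m := by
    intro k
    simp only [bad']
    split_ifs with h
    · have h3 := hFcard k h
      have h4 := Finset.card_sdiff_add_card_eq_card (hFsub k)
      rw [Finset.card_range] at h4
      omega
    · simp
  have habs : ∀ A B : ℕ, A < b → B < b → |(B : ℤ) - (A : ℤ)| < b := by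
    intro A B hA hB
    rw [abs_lt]
    constructor <;> omega
  have key : ∀ x y, (G g (2 * m) x y : ℝ) ≤ (1 - κ / 4) * (m * lam) := by
    intro x y
    apply window m lam κ hm hκ0 hκ1 g bad' hb2
    · intro j j' h
      simp only [g, P]
      rw [if_neg]
      rintro ⟨_, _, h'⟩
      exact h h'
    · intro j j'
      simp only [g]
      split_ifs
      · have h3 : ((⌊(1 - κ) * (lam : ℝ)⌋₊ : ℕ) : ℝ) ≤ lam := by
          have : (0 : ℝ) ≤ lam := Nat.cast_nonneg _
          nlinarith
        exact_mod_cast h3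
      · exact le_rfl
      · exact Nat.zero_le _
    · intro j j' hjj hgood
      simp only [g]
      have hgood' : Good j j' := hgood
      by_cases h : P j j'
      · rw [if_pos h, if_pos hgood']; exact hfl
      · rw [if_neg h]; simpa using hnn
  have hS := length_le_G g (fun j => u (j / m) (j % m)) (fun j => v (j / m) (j % m))
    (b * m) (b * m) (by
      intro j hj j' hj' T hT1 hT2
      have hjb : j / m < b := Nat.div_lt_of_lt_mul (by rwa [mul_comm])
      have hjb' : j' / m < b := Nat.div_lt_of_lt_mul (by rwa [mul_comm])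
      have hjm : j % m < m := Nat.mod_lt _ hm0
      have hjm' : j' % m < m := Nat.mod_lt _ hm0
      by_cases hjj : j % m = j' % m
      · have hP : P j j' := ⟨hj, hj', hjj⟩
        simp only [g]
        rw [if_pos hP]
        split_ifs with hgd
        · have hin : j % m ∈ F (((j' / m : ℕ) : ℤ) - ((j / m : ℕ) : ℤ)) := by
            simp only [Good, bad'] at hgd
            rw [if_pos (habs _ _ hjb hjb')] at hgd
            simp only [Finset.mem_sdiff, Finset.mem_range, not_and, not_not] at hgd
            exact hgd hjm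
          have := hfar (j / m) hjb (j' / m) hjb' (j % m) hin T hT1 (by
            have hT2' : T.Sublist (v (j' / m) (j' % m)) := hT2
            rw [hjj]; exact hT2')
          exact Nat.le_floor this
        · exact hT1.length_le.trans (hlen _ hjb _ hjm)
      · rcases T with _ | ⟨a, T⟩
        · simp
        · exfalso
          exact hdis _ hjb _ hjb' _ hjm _ hjm' hjj a (hT1.subset (by simp))
            (hT2.subset (by simp)))
    (b * m + b * m) (b * m) (b * m) 0 0 rfl (by omega) (by omega) S h1 h2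
  -- windows
  obtain ⟨W, hW⟩ : ∃ W, W = ⌊(1 - κ / 4) * ((m : ℝ) * lam)⌋₊ := ⟨_, rfl⟩
  have hnn2 : 0 ≤ (1 - κ / 4) * ((m : ℝ) * lam) := mul_nonneg (by linarith) (by positivity)
  have hWb : ∀ x y, G g (2 * m) x y ≤ W := by
    intro x y
    rw [hW]
    exact Nat.le_floor (key x y)
  have hWW : (W : ℝ) ≤ (1 - κ / 4) * ((m : ℝ) * lam) := by
    rw [hW]; exact Nat.floor_le hnn2
  have htot : G g (b * (2 * m)) 0 0 ≤ b * W := G_mul_le g (2 * m) W hWb b 0 0
  have he : b * m + b * m = b * (2 * m) := by ring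
  rw [he] at hS
  have hS2 : (S.length : ℝ) ≤ b * W := by exact_mod_cast hS.trans htot
  calc (S.length : ℝ) ≤ b * W := hS2
    _ ≤ b * ((1 - κ / 4) * ((m : ℝ) * lam)) :=
        mul_le_mul_of_nonneg_left hWW (Nat.cast_nonneg _)
    _ = (1 - κ / 4) * (b * m * lam) := by ring

end Crest.Agent.R210
private theorem rz_8253e2c7cc : type_of% @_root_.Crest.Agent.R210.Grid.G.eq_def := @_root_.Crest.Agent.R210.Grid.G.eq_def -- L40
private theorem rz_0db3323652 : type_of% @_root_.Crest.Agent.R210.Grid.G.eq_1 := @_root_.Crest.Agent.R210.Grid.G.eq_1 -- L40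
end

-- ▼ part R210/Kill
section

/-!
# R210 / Kill
The "killing" part of the level step: a character of the product group which is non-trivial at
`diag (N / M)` is killed either by the moves of many children or by the shift moves.
-/

set_option autoImplicit false

namespace Crest.Agent.R210

open Finset ComplexConjugate

/-- geometric sums of a root of unity -/
theorem norm_geom_sum_le {ζ : ℂ} {e : ℕ} (he : 0 < e) (h1 : ζ ^ e = 1) (hne : ζ ≠ 1) (B : ℕ) :
    ‖∑ s ∈ range B, ζ ^ s‖ ≤ e := by
  have hpow : ζ ^ B = ζ ^ (B % e) := by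
    conv_lhs => rw [← Nat.div_add_mod B e, pow_add, pow_mul, h1, one_pow, one_mul]
  have heq : ∑ s ∈ range B, ζ ^ s = ∑ s ∈ range (B % e), ζ ^ s := by
    have h2 : ζ - 1 ≠ 0 := sub_ne_zero.2 hne
    apply mul_left_cancel₀ h2
    rw [mul_comm, geom_sum_mul, mul_comm (ζ - 1), geom_sum_mul, hpow]
  have hnorm : ‖ζ‖ = 1 := by
    have : ‖ζ‖ ^ e = 1 := by rw [← norm_pow, h1, norm_one]
    exact (pow_eq_one_iff_of_nonneg (norm_nonneg _) he.ne').1 this
  rw [heq]
  calc ‖∑ s ∈ range (B % e), ζ ^ s‖ ≤ ∑ s ∈ range (B % e), ‖ζ ^ s‖ := norm_sum_le _ _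
    _ = (B % e : ℕ) := by simp [norm_pow, hnorm]
    _ ≤ e := by exact_mod_cast (Nat.mod_lt _ he).le

/-- the shift moves kill a character whose value `ζ ≠ 1` has order dividing `e ≤ B / 2` -/
theorem shift_kill {ζ : ℂ} {e : ℕ} (he : 0 < e) (h1 : ζ ^ e = 1) (hne : ζ ≠ 1) {B : ℕ}
    (hB : 2 * e ≤ B) : 1 ≤ ∑ s ∈ range B, (1 / (B : ℝ)) * ‖1 - ζ ^ s‖ ^ 2 := by
  have hnorm : ‖ζ‖ = 1 := by
    have : ‖ζ‖ ^ e = 1 := by rw [← norm_pow, h1, norm_one]
    exact (pow_eq_one_iff_of_nonneg (norm_nonneg _) he.ne').1 this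
  have hterm : ∀ s, ‖1 - ζ ^ s‖ ^ 2 = 2 - 2 * (ζ ^ s).re := by
    intro s
    have hs : Complex.normSq (ζ ^ s) = 1 := by
      rw [Complex.normSq_eq_norm_sq, norm_pow, hnorm]; simp
    rw [← Complex.normSq_eq_norm_sq, Complex.normSq_sub, hs, map_one, one_mul, Complex.conj_re]
    ring
  have hB0 : (0:ℝ) < B := by
    have : 0 < B := by omega
    exact_mod_cast this
  have hsum : ∑ s ∈ range B, ‖1 - ζ ^ s‖ ^ 2 = 2 * B - 2 * (∑ s ∈ range B, ζ ^ s).re := by
    simp only [hterm, Finset.sum_sub_distrib, ← Finset.mul_sum, Complex.re_sum]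
    simp
    ring
  rw [← Finset.mul_sum, hsum]
  have hre : (∑ s ∈ range B, ζ ^ s).re ≤ e :=
    (Complex.re_le_norm _).trans (norm_geom_sum_le he h1 hne B)
  have hB' : (2:ℝ) * e ≤ B := by exact_mod_cast hB
  rw [one_div, inv_mul_eq_div, le_div_iff₀ hB0]
  linarith

/-- a product of a non-trivial `M`-torsion element and a `P`-torsion element is non-trivial -/
theorem mul_ne_one_of_coprime {ξ η : ℂ} {M P : ℕ} (hξ : ξ ^ M = 1) (hη : η ^ P = 1)
    (hco : Nat.Coprime M P) (hne : ξ ≠ 1) : ξ * η ≠ 1 := by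
  intro h
  apply hne
  have hξP : ξ ^ P = 1 := by
    have : (ξ * η) ^ P = 1 := by rw [h, one_pow]
    rwa [mul_pow, hη, mul_one] at this
  have : orderOf ξ ∣ Nat.gcd M P :=
    Nat.dvd_gcd (orderOf_dvd_of_pow_eq_one hξ) (orderOf_dvd_of_pow_eq_one hξP)
  rw [hco] at this
  exact orderOf_eq_one_iff.1 (Nat.dvd_one.1 this)

section Step

variable {N M m : ℕ} {A : Fin m → Type} [∀ i, AddCommGroup (A i)]

/-- the shift generator of the level step -/
def shiftGen (N M : ℕ) {m : ℕ} {A : Fin m → Type} [∀ i, AddCommGroup (A i)] (q : Fin m → ℕ)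
    (dg : ∀ i, ZMod N →+ A i) : ∀ i, A i :=
  fun i => dg i (((N / M : ℕ) : ZMod N) + ((N / q i : ℕ) : ZMod N))

theorem char_pi_eq_prod (χ : AddChar (∀ i, A i) ℂ) (x : ∀ i, A i) :
    χ x = ∏ i, χ (Pi.single i (x i)) := by
  classical
  have hx : x = ∑ i, Pi.single i (x i) := by
    rw [Finset.univ_sum_single]
  conv_lhs => rw [hx]
  have key : ∀ T : Finset (Fin m), χ (∑ i ∈ T, Pi.single i (x i)) =
      ∏ i ∈ T, χ (Pi.single i (x i)) := by
    intro T
    induction T using Finset.induction_on with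
    | empty => simp
    | insert a T ha ih =>
      rw [Finset.sum_insert ha, Finset.prod_insert ha, AddChar.map_add_eq_mul, ih]
  exact key _

/-- **killing step.** -/
theorem kill_step [NeZero N] (q : Fin m → ℕ) (dg : ∀ i, ZMod N →+ A i)
    (hMq : ∀ i, M * q i ∣ N) (hco : ∀ i, Nat.Coprime M (q i))
    {κ : Fin m → Type} [∀ i, Fintype (κ i)] (wt : ∀ i, κ i → ℝ) (hwt : ∀ i k, 0 ≤ wt i k)
    (mv : ∀ i, κ i → A i)
    (hchild : ∀ i, ∀ χ : AddChar (A i) ℂ, χ (dg i ((N / (M * q i) : ℕ) : ZMod N)) ≠ 1 →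
      1 ≤ ∑ k, wt i k * ‖1 - χ (mv i k)‖ ^ 2)
    (w Q B : ℕ) (hw : 0 < w) (hQ : ∀ i, q i ≤ Q) (hB : 2 * (M * Q ^ w) ≤ B)
    (hQ1 : 1 ≤ Q) (hN0 : 0 < N)
    (χ : AddChar (∀ i, A i) ℂ) (hχ : χ (fun i => dg i ((N / M : ℕ) : ZMod N)) ≠ 1) :
    1 ≤ (∑ i, ∑ k, (wt i k / w) * ‖1 - χ (Pi.single i (mv i k))‖ ^ 2) +
      ∑ s ∈ range B, (1 / (B : ℝ)) * ‖1 - χ (s • shiftGen N M q dg)‖ ^ 2 := by
  classical
  have hm : ∀ i, 0 < M ∧ 0 < q i := by
    intro i
    have := Nat.pos_of_dvd_of_pos (hMq i) hN0
    exact ⟨Nat.pos_of_mul_pos_left this |> fun h => by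
      rcases Nat.eq_zero_or_pos M with h0 | h0
      · rw [h0, zero_mul] at this; omega
      · exact h0, by
      rcases Nat.eq_zero_or_pos (q i) with h0 | h0
      · rw [h0, mul_zero] at this; omega
      · exact h0⟩
  -- children characters
  set χc : ∀ i, AddChar (A i) ℂ := fun i => χ.compAddMonoidHom (AddMonoidHom.single A i) with hχc
  have hχc_apply : ∀ i x, χc i x = χ (Pi.single i x) := fun i x => rfl
  set S : Finset (Fin m) := univ.filter fun i => χc i (dg i ((N / (M * q i) : ℕ) : ZMod N)) ≠ 1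
    with hS
  have hshift0 : 0 ≤ ∑ s ∈ range B, (1 / (B : ℝ)) * ‖1 - χ (s • shiftGen N M q dg)‖ ^ 2 :=
    Finset.sum_nonneg fun _ _ => by positivity
  have hchild0 : ∀ i, 0 ≤ ∑ k, (wt i k / w) * ‖1 - χ (Pi.single i (mv i k))‖ ^ 2 := fun i =>
    Finset.sum_nonneg fun k _ => mul_nonneg (div_nonneg (hwt i k) (Nat.cast_nonneg _))
      (by positivity)
  have hw' : (0:ℝ) < w := by exact_mod_cast hw
  rcases le_or_gt w S.card with hcase | hcase
  · -- many children
    have h1 : ∀ i ∈ S, (1:ℝ) / w ≤ ∑ k, (wt i k / w) * ‖1 - χ (Pi.single i (mv i k))‖ ^ 2 := by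
      intro i hi
      have := hchild i (χc i) (Finset.mem_filter.1 hi).2
      simp only [hχc_apply] at this
      have e : ∑ k, (wt i k / w) * ‖1 - χ (Pi.single i (mv i k))‖ ^ 2 =
          (∑ k, wt i k * ‖1 - χ (Pi.single i (mv i k))‖ ^ 2) / w := by
        rw [Finset.sum_div]
        apply Finset.sum_congr rfl
        intro k _
        ring
      rw [e]
      gcongr
    have h2 : (1:ℝ) ≤ ∑ i, ∑ k, (wt i k / w) * ‖1 - χ (Pi.single i (mv i k))‖ ^ 2 := by
      calc (1:ℝ) ≤ S.card * (1 / w) := by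
            rw [mul_one_div, le_div_iff₀ hw', one_mul]
            exact_mod_cast hcase
        _ = ∑ i ∈ S, (1:ℝ) / w := by simp
        _ ≤ ∑ i ∈ S, ∑ k, (wt i k / w) * ‖1 - χ (Pi.single i (mv i k))‖ ^ 2 :=
            Finset.sum_le_sum h1
        _ ≤ _ := Finset.sum_le_sum_of_subset_of_nonneg (Finset.subset_univ _)
            fun i _ _ => hchild0 i
    linarith
  · -- few children: shift moves
    rcases Nat.eq_zero_or_pos m with hm0 | hmpos
    · subst hm0
      exfalso
      apply hχ
      rw [char_pi_eq_prod]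
      simp
    have hMpos : 0 < M := (hm ⟨0, hmpos⟩).1
    have hMN : M ∣ N := (Dvd.intro _ rfl).trans (hMq ⟨0, hmpos⟩)
    set ξ := χ (fun i => dg i ((N / M : ℕ) : ZMod N)) with hξ
    set η : Fin m → ℂ := fun i => χ (Pi.single i (dg i ((N / q i : ℕ) : ZMod N))) with hη
    have hξM : ξ ^ M = 1 := by
      rw [hξ, ← AddChar.map_nsmul_eq_pow]
      have : M • (fun i => dg i ((N / M : ℕ) : ZMod N)) = 0 := by
        funext i
        simp only [Pi.smul_apply, Pi.zero_apply]
        rw [← map_nsmul, nsmul_eq_mul, ← Nat.cast_mul, Nat.mul_div_cancel' hMN,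
          ZMod.natCast_self, map_zero]
      rw [this, AddChar.map_zero_eq_one]
    have hηS : ∀ i, i ∉ S → η i = 1 := by
      intro i hi
      have h1 : χc i (dg i ((N / (M * q i) : ℕ) : ZMod N)) = 1 := by
        by_contra h
        exact hi (Finset.mem_filter.2 ⟨Finset.mem_univ _, h⟩)
      have h2 : ((N / q i : ℕ) : ZMod N) = M • ((N / (M * q i) : ℕ) : ZMod N) := by
        rw [nsmul_eq_mul, ← Nat.cast_mul]
        congr 1
        obtain ⟨c, hc⟩ := hMq i
        have hqi := (hm i).2
        rw [hc, Nat.mul_div_cancel_left _ (Nat.mul_pos hMpos hqi),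
          show M * q i * c = q i * (M * c) by ring, Nat.mul_div_cancel_left _ hqi]
      have h3 : η i = (χc i (dg i ((N / (M * q i) : ℕ) : ZMod N))) ^ M := by
        rw [← AddChar.map_nsmul_eq_pow, ← map_nsmul, ← h2]
        rfl
      rw [h3, h1, one_pow]
    have hηq : ∀ i, η i ^ q i = 1 := by
      intro i
      have h3 : η i = χc i (dg i ((N / q i : ℕ) : ZMod N)) := rfl
      rw [h3, ← AddChar.map_nsmul_eq_pow, ← map_nsmul, nsmul_eq_mul, ← Nat.cast_mul,
        Nat.mul_div_cancel' ((Dvd.intro_left _ rfl).trans (hMq i)), ZMod.natCast_self, map_zero,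
        AddChar.map_zero_eq_one]
    set P := ∏ i ∈ S, q i with hP
    have hprodη : ∏ i, η i = ∏ i ∈ S, η i :=
      (Finset.prod_subset (Finset.subset_univ S) fun i _ hi => hηS i hi).symm
    have hηP : (∏ i, η i) ^ P = 1 := by
      rw [hprodη, ← Finset.prod_pow]
      apply Finset.prod_eq_one
      intro i hi
      obtain ⟨c, hc⟩ : q i ∣ P := Finset.dvd_prod_of_mem q hi
      rw [hc, pow_mul, hηq, one_pow]
    have hcoP : Nat.Coprime M P := Nat.Coprime.prod_right fun i _ => hco i
    have hζ : χ (shiftGen N M q dg) = ξ * ∏ i, η i := by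
      rw [char_pi_eq_prod, hξ, char_pi_eq_prod, ← Finset.prod_mul_distrib]
      apply Finset.prod_congr rfl
      intro i _
      rw [hη, ← AddChar.map_add_eq_mul, ← Pi.single_add, ← map_add]
      rfl
    have hζne : ξ * ∏ i, η i ≠ 1 := mul_ne_one_of_coprime hξM hηP hcoP hχ
    have hζe : (ξ * ∏ i, η i) ^ (M * P) = 1 := by
      rw [mul_pow, pow_mul, hξM, one_pow, mul_comm M P, pow_mul, hηP, one_pow, one_mul]
    have hPpos : 0 < P := Finset.prod_pos fun i _ => (hm i).2
    have hPle : P ≤ Q ^ w := by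
      calc P ≤ ∏ i ∈ S, Q := Finset.prod_le_prod' fun i _ => hQ i
        _ = Q ^ S.card := by simp
        _ ≤ Q ^ w := Nat.pow_le_pow_right hQ1 hcase.le
    have hBe : 2 * (M * P) ≤ B :=
      le_trans (Nat.mul_le_mul_left _ (Nat.mul_le_mul_left _ hPle)) hB
    have hfin := shift_kill (Nat.mul_pos hMpos hPpos) hζe hζne hBe
    have heq : ∑ s ∈ range B, (1 / (B : ℝ)) * ‖1 - χ (s • shiftGen N M q dg)‖ ^ 2 =
        ∑ s ∈ range B, (1 / (B : ℝ)) * ‖1 - (ξ * ∏ i, η i) ^ s‖ ^ 2 := by
      apply Finset.sum_congr rfl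
      intro s _
      rw [AddChar.map_nsmul_eq_pow, hζ]
    rw [heq]
    have : 0 ≤ ∑ i, ∑ k, (wt i k / w) * ‖1 - χ (Pi.single i (mv i k))‖ ^ 2 :=
      Finset.sum_nonneg fun i _ => hchild0 i
    linarith

end Step

end Crest.Agent.R210
end

-- ▼ part R210/Level
section

/-!
# The recursive structure
-/

set_option autoImplicit false
open Crest.GeometryTopology.EditDistance

namespace Crest.Agent.R210

theorem norm_one_sub_sq (z : ℂ) (hz : ‖z‖ = 1) : ‖1 - z‖ ^ 2 = 2 - 2 * z.re := by
  rw [← Complex.normSq_eq_norm_sq, Complex.normSq_sub]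
  have : Complex.normSq z = 1 := by rw [Complex.normSq_eq_norm_sq, hz]; norm_num
  simp [this]; ring

/-- A level structure of modulus `M ∣ N` over the alphabet `α`: words `Y a` of length `L`
indexed by a finite abelian group `A`, with a homomorphism `diag : ZMod N → A`. -/
structure Lvl (α : Type) (N M L : ℕ) (κ C : ℝ) where
  A : Type
  grp : AddCommGroup A
  fin : Fintype A
  diag : ZMod N →+ A
  Y : A → List α
  len : ∀ a, (Y a).length = L
  far : ∀ (a : A) (δ : ZMod N), (M : ZMod N) * δ = 0 → δ ≠ 0 →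
    LCSle (Y a) (Y (a + diag δ)) ((1 - κ) * L)
  K : Type
  finK : Fintype K
  z : K → A
  w : K → ℝ
  c : K → ℝ
  w_nonneg : ∀ k, 0 ≤ w k
  cost : ∀ k a, (editDist (Y a) (Y (a + z k)) : ℝ) ≤ c k
  total : ∑ k, w k * c k ≤ C * L
  kill : ∀ χ : AddChar A ℂ, χ (diag ((N / M : ℕ) : ZMod N)) ≠ 1 →
    1 ≤ ∑ k, w k * ‖1 - χ (z k)‖ ^ 2

attribute [instance] Lvl.grp Lvl.fin Lvl.finK

/-- The base: one letter. -/
theorem Lvl.base (N M : ℕ) (hN : N ≠ 0) : Nonempty (Lvl (ZMod N) N M 1 1 (1 / 2)) := by
  have : NeZero N := ⟨hN⟩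
  refine ⟨{
    A := ZMod N
    grp := inferInstance
    fin := inferInstance
    diag := AddMonoidHom.id _
    Y := fun a => [a]
    len := fun a => rfl
    far := ?_
    K := ZMod N
    finK := inferInstance
    z := id
    w := fun _ => 1 / (2 * N)
    c := fun _ => 1
    w_nonneg := fun _ => by positivity
    cost := ?_
    total := ?_
    kill := ?_ }⟩
  · intro a δ _ hδ w hw1 hw2
    have : w = [] := by
      rcases List.sublist_singleton.mp hw1 with h | h
      · exact h
      · rcases List.sublist_singleton.mp hw2 with h' | h'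
        · exact h'
        · exfalso
          rw [h] at h'
          apply hδ
          simpa using h'
    simp [this]
  · intro k a
    exact_mod_cast editDist_singleton a (a + id k)
  · have : (0 : ℝ) < N := by positivity
    simp [ZMod.card]
    field_simp
    norm_num
  · intro χ hχ
    have hχ' : χ ≠ 0 := by
      rintro rfl
      simp at hχ
    have h0 : ∑ x, χ x = 0 := AddChar.sum_eq_zero_iff_ne_zero.mpr hχ'
    have h1 : ∀ x, ‖1 - χ x‖ ^ 2 = 2 - 2 * (χ x).re := fun x =>
      norm_one_sub_sq _ (AddChar.norm_apply χ x)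
    simp only [id, h1]
    rw [← Finset.mul_sum, Finset.sum_sub_distrib, ← Finset.mul_sum, ← Complex.re_sum, h0]
    have : (0 : ℝ) < N := by positivity
    simp [ZMod.card]
    rw [mul_assoc, mul_comm, mul_assoc]
    field_simp
    norm_num

/-- number of prime divisors -/
theorem card_dvd_le (m b : ℕ) (q : ℕ → ℕ) (hprime : ∀ i < m, (q i).Prime)
    (hinj : ∀ i < m, ∀ j < m, q i = q j → i = j) (hb : b ≤ 2 ^ (m / 2))
    (e : ℤ) (he0 : e ≠ 0) (he : |e| < b) :
    2 * ((Finset.range m).filter fun i => ((q i : ℤ) ∣ e)).card ≤ m := by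
  set S := (Finset.range m).filter fun i => ((q i : ℤ) ∣ e) with hS
  have hSm : ∀ i ∈ S, i < m := fun i hi => Finset.mem_range.mp (Finset.mem_filter.mp hi).1
  have hinjS : Set.InjOn q S := fun i hi j hj h => hinj i (hSm i hi) j (hSm j hj) h
  have h1 : ∏ i ∈ S, q i ∣ e.natAbs := by
    rw [← Finset.prod_image (f := fun x => x) hinjS]
    apply Finset.prod_primes_dvd
    · intro a ha
      obtain ⟨i, hi, rfl⟩ := Finset.mem_image.mp ha
      exact (hprime i (hSm i hi)).prime
    · intro a ha
      obtain ⟨i, hi, rfl⟩ := Finset.mem_image.mp ha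
      exact Int.natCast_dvd.mp (Finset.mem_filter.mp hi).2
  have h2 : 2 ^ S.card ≤ ∏ i ∈ S, q i := by
    calc 2 ^ S.card = ∏ i ∈ S, 2 := by simp
      _ ≤ ∏ i ∈ S, q i := Finset.prod_le_prod' fun i hi => (hprime i (hSm i hi)).two_le
  have h3 : ∏ i ∈ S, q i ≤ e.natAbs := Nat.le_of_dvd (Int.natAbs_pos.mpr he0) h1
  have h4 : e.natAbs < b := by
    have : ((e.natAbs : ℕ) : ℤ) < b := by rw [Int.natCast_natAbs]; exact he
    exact_mod_cast this
  have h5 : 2 ^ S.card < 2 ^ (m / 2) := by omega
  have h6 : S.card < m / 2 := (Nat.pow_lt_pow_iff_right (by norm_num)).mp h5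
  omega

/-- The block of the level step. -/
noncomputable def blk {α : Type} {N m : ℕ} {A : Fin m → Type} [∀ i, AddCommGroup (A i)]
    (Y : ∀ i, A i → List α) (dg : ∀ i, ZMod N →+ A i) (g : ℕ → ZMod N)
    (a : ∀ i, A i) (c i : ℕ) : List (Fin m × α) :=
  if h : i < m then
    (Y ⟨i, h⟩ (a ⟨i, h⟩ + dg ⟨i, h⟩ ((c : ZMod N) * g i))).map (Prod.mk ⟨i, h⟩)
  else []

/-- The word of the level step. -/
noncomputable def wrd {α : Type} {N m : ℕ} {A : Fin m → Type} [∀ i, AddCommGroup (A i)]
    (b : ℕ) (Y : ∀ i, A i → List α) (dg : ∀ i, ZMod N →+ A i) (g : ℕ → ZMod N)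
    (a : ∀ i, A i) : List (Fin m × α) :=
  (List.range b).flatMap fun c => (List.range m).flatMap fun i => blk Y dg g a c i

section Word

variable {α : Type} {N m : ℕ} {A : Fin m → Type} [∀ i, AddCommGroup (A i)]
    (Y : ∀ i, A i → List α) (dg : ∀ i, ZMod N →+ A i) (g : ℕ → ZMod N)

theorem length_blk (L : ℕ) (hL : ∀ i a, (Y i a).length = L) (a : ∀ i, A i) (c i : ℕ)
    (hi : i < m) : (blk Y dg g a c i).length = L := by
  simp [blk, hi, hL]

theorem length_row (L : ℕ) (hL : ∀ i a, (Y i a).length = L) (a : ∀ i, A i) (c : ℕ) :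
    ((List.range m).flatMap fun i => blk Y dg g a c i).length = m * L := by
  rw [List.length_flatMap]
  have : List.map (fun i => (blk Y dg g a c i).length) (List.range m)
      = List.map (fun _ => L) (List.range m) := by
    apply List.map_congr_left
    intro i hi
    exact length_blk Y dg g L hL a c i (List.mem_range.mp hi)
  rw [this]
  simp

theorem length_wrd (b L : ℕ) (hL : ∀ i a, (Y i a).length = L) (a : ∀ i, A i) :
    (wrd b Y dg g a).length = b * (m * L) := by
  unfold wrd
  rw [List.length_flatMap]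
  simp only [length_row Y dg g L hL]
  simp

theorem blk_disjoint (a a' : ∀ i, A i) (c c' i i' : ℕ) (hi : i < m) (hi' : i' < m)
    (hne : i ≠ i') : ∀ x ∈ blk Y dg g a c i, x ∉ blk Y dg g a' c' i' := by
  intro x hx hx'
  simp only [blk, hi, hi', dif_pos, List.mem_map] at hx hx'
  obtain ⟨y, _, rfl⟩ := hx
  obtain ⟨y', _, h⟩ := hx'
  have := congrArg (fun p : Fin m × α => p.1.val) h
  simp at this
  exact hne this.symm

end Word

section Moves

variable {α : Type} {N m : ℕ} {A : Fin m → Type} [∀ i, AddCommGroup (A i)]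
    (Y : ∀ i, A i → List α) (dg : ∀ i, ZMod N →+ A i) (g : ℕ → ZMod N)

theorem blk_shift (a : ∀ i, A i) (s c i : ℕ) :
    blk Y dg g (a + s • (fun i : Fin m => dg i (g i))) c i = blk Y dg g a (c + s) i := by
  unfold blk
  split_ifs with h
  · congr 2
    simp only [Pi.add_apply, Pi.smul_apply]
    rw [← map_nsmul, add_assoc, ← map_add]
    congr 2
    push_cast
    rw [nsmul_eq_mul]
    ring
  · rfl

theorem cost_shift (b L : ℕ) (hL : ∀ i a, (Y i a).length = L) (a : ∀ i, A i) (s : ℕ) :
    editDist (wrd b Y dg g a) (wrd b Y dg g (a + s • (fun i : Fin m => dg i (g i))))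
      ≤ 2 * s * (m * L) := by
  unfold wrd
  simp only [blk_shift]
  exact editDist_shift_le b s (m * L)
    (fun c => (List.range m).flatMap fun i => blk Y dg g a c i)
    (fun c => (length_row Y dg g L hL a c).le)

theorem cost_single (b : ℕ) (a : ∀ i, A i) (j : Fin m) (z : A j) (C : ℝ)
    (hC : ∀ x, (editDist (Y j x) (Y j (x + z)) : ℝ) ≤ C) :
    (editDist (wrd b Y dg g a) (wrd b Y dg g (a + Pi.single j z)) : ℝ) ≤ b * C := by
  have hrow : ∀ c, ((editDist ((List.range m).flatMap fun i => blk Y dg g a c i)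
      ((List.range m).flatMap fun i => blk Y dg g (a + Pi.single j z) c i) : ℕ) : ℝ) ≤ C := by
    intro c
    have h1 := editDist_flatMap_range_le m (fun i => blk Y dg g a c i)
      (fun i => blk Y dg g (a + Pi.single j z) c i)
    have h2 : ∑ i ∈ Finset.range m, editDist (blk Y dg g a c i)
        (blk Y dg g (a + Pi.single j z) c i)
        = editDist (blk Y dg g a c j) (blk Y dg g (a + Pi.single j z) c j) := by
      apply Finset.sum_eq_single_of_mem (j : ℕ) (Finset.mem_range.mpr j.2)
      intro i hi hij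
      have hi' := Finset.mem_range.mp hi
      have hne : (⟨i, hi'⟩ : Fin m) ≠ j := fun h => hij (by rw [← h])
      have : blk Y dg g (a + Pi.single j z) c i = blk Y dg g a c i := by
        unfold blk
        simp [hi', Pi.single_eq_of_ne hne]
      rw [this, editDist_self]
    have h3 : ((editDist (blk Y dg g a c j) (blk Y dg g (a + Pi.single j z) c j) : ℕ) : ℝ)
        ≤ C := by
      have h4 : blk Y dg g a c j = (Y j (a j + dg j ((c : ZMod N) * g j))).map (Prod.mk j) := by
        unfold blk
        simp [j.2]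
      have h5 : blk Y dg g (a + Pi.single j z) c j
          = (Y j (a j + dg j ((c : ZMod N) * g j) + z)).map (Prod.mk j) := by
        unfold blk
        simp only [j.2, dif_pos, Fin.eta, Pi.add_apply, Pi.single_eq_same]
        congr 2
        abel
      rw [h4, h5]
      refine le_trans ?_ (hC (a j + dg j ((c : ZMod N) * g j)))
      exact_mod_cast editDist_map_le _ _ _
    calc ((editDist _ _ : ℕ) : ℝ) ≤ ((∑ i ∈ Finset.range m, editDist (blk Y dg g a c i)
        (blk Y dg g (a + Pi.single j z) c i) : ℕ) : ℝ) := by exact_mod_cast h1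
      _ ≤ C := by rw [h2]; exact h3
  have h1 := editDist_flatMap_range_le b
    (fun c => (List.range m).flatMap fun i => blk Y dg g a c i)
    (fun c => (List.range m).flatMap fun i => blk Y dg g (a + Pi.single j z) c i)
  calc ((editDist (wrd b Y dg g a) (wrd b Y dg g (a + Pi.single j z)) : ℕ) : ℝ)
      ≤ ((∑ c ∈ Finset.range b, editDist ((List.range m).flatMap fun i => blk Y dg g a c i)
        ((List.range m).flatMap fun i => blk Y dg g (a + Pi.single j z) c i) : ℕ) : ℝ) := by
        exact_mod_cast h1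
    _ = ∑ c ∈ Finset.range b, ((editDist ((List.range m).flatMap fun i => blk Y dg g a c i)
        ((List.range m).flatMap fun i => blk Y dg g (a + Pi.single j z) c i) : ℕ) : ℝ) := by
        push_cast; rfl
    _ ≤ ∑ _c ∈ Finset.range b, C := Finset.sum_le_sum fun c _ => hrow c
    _ = b * C := by simp

end Moves

/-- The far property of the step. -/
theorem far_step {α : Type} {N M m b L : ℕ} {κ : ℝ} (q : ℕ → ℕ) 
    {A : Fin m → Type} [∀ i, AddCommGroup (A i)]
    (Y : ∀ i, A i → List α) (dg : ∀ i, ZMod N →+ A i)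
    (hN : N ≠ 0) (hm : 6 ≤ m) (hκ0 : 0 ≤ κ) (hκ1 : κ ≤ 1)
    (hprime : ∀ i < m, (q i).Prime)
    (hinj : ∀ i < m, ∀ j < m, q i = q j → i = j)
    (hcop : ∀ i < m, Nat.Coprime M (q i))
    (hMq : ∀ i < m, M * q i ∣ N)
    (hb : b ≤ 2 ^ (m / 2)) (hL : ∀ i a, (Y i a).length = L)
    (far : ∀ (i : Fin m) (a : A i) (δ : ZMod N), ((M * q i : ℕ) : ZMod N) * δ = 0 → δ ≠ 0 →
      LCSle (Y i a) (Y i (a + dg i δ)) ((1 - κ) * L))
    (a : ∀ i, A i) (δ : ZMod N) (hMδ : (M : ZMod N) * δ = 0) (hδ : δ ≠ 0) :
    let g : ℕ → ZMod N := fun i => ((N / M : ℕ) : ZMod N) + ((N / q i : ℕ) : ZMod N)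
    LCSle (wrd b Y dg g a) (wrd b Y dg g (a + fun i => dg i δ))
      ((1 - κ / 4) * ((b * (m * L) : ℕ) : ℝ)) := by
  intro g
  classical
  have hMN : M ∣ N := (Dvd.intro _ rfl).trans (hMq 0 (by omega))
  have hMg : ∀ i < m, ((M * q i : ℕ) : ZMod N) * g i = 0 := by
    intro i hi
    have h1 : (q i * (M * (N / M)) : ℕ) = q i * N := by rw [Nat.mul_div_cancel' hMN]
    have h2 : (M * (q i * (N / q i)) : ℕ) = M * N := by
      rw [Nat.mul_div_cancel' ((Dvd.intro_left _ rfl).trans (hMq i hi))]
    have h1' := congrArg (Nat.cast : ℕ → ZMod N) h1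
    have h2' := congrArg (Nat.cast : ℕ → ZMod N) h2
    push_cast at h1' h2'
    simp only [ZMod.natCast_self, mul_zero] at h1' h2'
    simp only [g]
    push_cast
    linear_combination h1' + h2'
  -- far set
  let F : ℤ → Finset ℕ := fun e => (Finset.range m).filter fun i => δ + (e : ZMod N) * g i ≠ 0
  have hbad : ∀ e : ℤ, ∀ i < m, δ + (e : ZMod N) * g i = 0 → e ≠ 0 ∧ (q i : ℤ) ∣ e := by
    intro e i hi h
    constructor
    · rintro rfl
      simp at h
      exact hδ h
    · have hqN : q i ∣ N := (Dvd.intro_left _ rfl).trans (hMq i hi)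
      obtain ⟨n', hn'⟩ := hqN
      have hqpos : 0 < q i := (hprime i hi).pos
      have hn'pos : 0 < n' := by
        rcases Nat.eq_zero_or_pos n' with h0 | h0
        · rw [h0, mul_zero] at hn'; exact absurd hn' hN
        · exact h0
      have h4 : N / q i = n' := by rw [hn', Nat.mul_div_cancel_left _ hqpos]
      have h1 : ((e * M * n' : ℤ) : ZMod N) = 0 := by
        have h2 : (M : ZMod N) * (δ + (e : ZMod N) * g i) = 0 := by rw [h, mul_zero]
        have h3 : ((M * (N / M) : ℕ) : ZMod N) = 0 := by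
          rw [Nat.mul_div_cancel' hMN, ZMod.natCast_self]
        simp only [g, h4] at h2
        rw [Nat.cast_mul] at h3
        push_cast
        linear_combination h2 - hMδ - (e : ZMod N) * h3
      rw [ZMod.intCast_zmod_eq_zero_iff_dvd] at h1
      have h1' : ((q i * n' : ℕ) : ℤ) ∣ e * M * n' := hn' ▸ h1
      push_cast at h1'
      have h5 : (q i : ℤ) ∣ e * M :=
        Int.dvd_of_mul_dvd_mul_right (by exact_mod_cast hn'pos.ne') h1'
      exact (Int.isCoprime_iff_gcd_eq_one.mpr (by
        rw [Int.gcd_natCast_natCast]; exact (hcop i hi).symm)).dvd_of_dvd_mul_right h5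
  have hFcard : ∀ e : ℤ, |e| < b → m ≤ 2 * (F e).card := by
    intro e he
    have hcompl : (F e).card + ((Finset.range m).filter
        fun i => ¬ (δ + (e : ZMod N) * g i ≠ 0)).card = m := by
      have := Finset.card_filter_add_card_filter_not (s := Finset.range m)
        (fun i => δ + (e : ZMod N) * g i ≠ 0)
      simpa [F] using this
    have hle : 2 * ((Finset.range m).filter
        fun i => ¬ (δ + (e : ZMod N) * g i ≠ 0)).card ≤ m := by
      rcases eq_or_ne e 0 with rfl | he0
      · have : ((Finset.range m).filter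
          fun i => ¬ (δ + ((0 : ℤ) : ZMod N) * g i ≠ 0)) = ∅ := by
          apply Finset.filter_false_of_mem
          intro i hi
          simpa using hδ
        rw [this]; simp
      · refine le_trans (Nat.mul_le_mul_left 2 (Finset.card_le_card ?_))
          (card_dvd_le m b q hprime hinj hb e he0 he)
        intro i hi
        rw [Finset.mem_filter] at hi ⊢
        exact ⟨hi.1, (hbad e i (Finset.mem_range.mp hi.1) (not_not.mp hi.2)).2⟩
    omega
  have hgrid := grid_lcs m b L hm κ hκ0 hκ1 (fun c i => blk Y dg g a c i)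
    (fun c i => blk Y dg g (a + fun i => dg i δ) c i)
    (fun c _ i hi => (length_blk Y dg g L hL a c i hi).le)
    (fun c _ c' _ i hi i' hi' hne => blk_disjoint Y dg g a _ c c' i i' hi hi' hne)
    F (fun e => Finset.filter_subset _ _) hFcard ?_
  · unfold wrd
    convert hgrid using 2
    push_cast
    ring
  · intro c _ c' _ i hi
    have him : i < m := Finset.mem_range.mp (Finset.mem_filter.mp hi).1
    have hne := (Finset.mem_filter.mp hi).2
    have h1 : blk Y dg g a c i = (Y ⟨i, him⟩ (a ⟨i, him⟩ + dg ⟨i, him⟩ ((c : ZMod N) * g i))).map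
        (Prod.mk ⟨i, him⟩) := by
      unfold blk; simp [him]
    have h2 : blk Y dg g (a + fun i => dg i δ) c' i
        = (Y ⟨i, him⟩ ((a ⟨i, him⟩ + dg ⟨i, him⟩ ((c : ZMod N) * g i)) +
            dg ⟨i, him⟩ (δ + (((c' : ℤ) - c : ℤ) : ZMod N) * g i))).map (Prod.mk ⟨i, him⟩) := by
      unfold blk
      simp only [him, dif_pos, Pi.add_apply]
      congr 2
      rw [add_assoc, add_assoc, ← map_add, ← map_add]
      congr 2
      push_cast
      ring
    have hfar := far ⟨i, him⟩ (a ⟨i, him⟩ + dg ⟨i, him⟩ ((c : ZMod N) * g i))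
      (δ + (((c' : ℤ) - c : ℤ) : ZMod N) * g i) ?_ hne
    · intro w hw1 hw2
      rw [h1] at hw1
      rw [h2] at hw2
      obtain ⟨w1, hw1', rfl⟩ := List.sublist_map_iff.mp hw1
      obtain ⟨w2, hw2', hw12⟩ := List.sublist_map_iff.mp hw2
      have : w1 = w2 := List.map_injective_iff.mpr (Prod.mk_right_injective _) hw12
      subst this
      rw [List.length_map]
      exact hfar _ hw1' hw2'
    · have h3 := hMg i him
      push_cast at h3 ⊢
      linear_combination (q i : ZMod N) * hMδ + ((c' : ZMod N) - c) * h3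

/-- The recursive step. -/
theorem Lvl.step {α : Type} {N M L m b B W Q : ℕ} {κ C : ℝ} (q : ℕ → ℕ)
    (hN : N ≠ 0) (hm : 6 ≤ m) (hκ0 : 0 ≤ κ) (hκ1 : κ ≤ 1)
    (hprime : ∀ i < m, (q i).Prime)
    (hinj : ∀ i < m, ∀ j < m, q i = q j → i = j)
    (hcop : ∀ i < m, Nat.Coprime M (q i))
    (hMq : ∀ i < m, M * q i ∣ N)
    (hb : b ≤ 2 ^ (m / 2)) (hBb : B ≤ b)
    (hQ : ∀ i < m, q i ≤ Q) (hW : 0 < W)
    (hB : 2 * (M * Q ^ W) ≤ B)
    (child : ∀ i < m, Nonempty (Lvl α N (M * q i) L κ C)) :
    Nonempty (Lvl (Fin m × α) N M (b * (m * L)) (κ / 4) (C / W + 2 * B / b)) := by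
  classical
  have : NeZero N := ⟨hN⟩
  let ch : ∀ i : Fin m, Lvl α N (M * q i) L κ C := fun i => (child i i.2).some
  let g : ℕ → ZMod N := fun i => ((N / M : ℕ) : ZMod N) + ((N / q i : ℕ) : ZMod N)
  have hM0 : 0 < M := by
    have := Nat.pos_of_dvd_of_pos (hMq 0 (by omega)) (Nat.pos_of_ne_zero hN)
    exact Nat.pos_of_mul_pos_right this
  have hQ1 : 1 ≤ Q := le_trans (hprime 0 (by omega)).one_lt.le (hQ 0 (by omega))
  have hB0 : 0 < B := by
    have : 0 < M * Q ^ W := Nat.mul_pos hM0 (Nat.pow_pos (by omega))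
    omega
  have hb0 : 0 < b := by omega
  refine ⟨{
    A := ∀ i, (ch i).A
    grp := inferInstance
    fin := inferInstance
    diag := AddMonoidHom.pi fun i => (ch i).diag
    Y := fun a => wrd b (fun i => (ch i).Y) (fun i => (ch i).diag) g a
    len := fun a => length_wrd _ _ _ b L (fun i a => (ch i).len a) a
    far := ?_
    K := (Σ i : Fin m, (ch i).K) ⊕ Fin B
    finK := inferInstance
    z := Sum.elim (fun p => Pi.single p.1 ((ch p.1).z p.2))
      (fun s => (s : ℕ) • (fun i : Fin m => (ch i).diag (g i)))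
    w := Sum.elim (fun p => (ch p.1).w p.2 / W) (fun _ => 1 / (B : ℝ))
    c := Sum.elim (fun p => b * (ch p.1).c p.2) (fun _ => 2 * B * (m * L))
    w_nonneg := ?_
    cost := ?_
    total := ?_
    kill := ?_ }⟩
  · intro a δ hMδ hδ
    exact far_step q (fun i => (ch i).Y) (fun i => (ch i).diag) hN hm hκ0 hκ1 hprime hinj hcop hMq
      hb (fun i a => (ch i).len a) (fun i a δ h1 h2 => (ch i).far a δ h1 h2) a δ hMδ hδ
  · rintro (p | s)
    · exact div_nonneg ((ch p.1).w_nonneg p.2) (Nat.cast_nonneg _)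
    · simp
  · rintro (p | s) a
    · exact cost_single _ _ g b a p.1 ((ch p.1).z p.2) ((ch p.1).c p.2)
        (fun x => (ch p.1).cost p.2 x)
    · have h1 := cost_shift (fun i => (ch i).Y) (fun i => (ch i).diag) g b L
        (fun i a => (ch i).len a) a s
      have h2 : 2 * (s : ℕ) * (m * L) ≤ 2 * B * (m * L) := by
        have := s.2.le
        gcongr
      simp only [Sum.elim_inr]
      exact_mod_cast h1.trans h2
  · rw [Fintype.sum_sum_type, Fintype.sum_sigma]
    simp only [Sum.elim_inl, Sum.elim_inr]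
    have h1 : ∀ i : Fin m, ∑ k, (ch i).w k / W * (b * (ch i).c k) ≤ b / W * (C * L) := by
      intro i
      calc ∑ k, (ch i).w k / W * (b * (ch i).c k)
          = b / W * ∑ k, (ch i).w k * (ch i).c k := by
            rw [Finset.mul_sum]; apply Finset.sum_congr rfl; intro k _; ring
        _ ≤ b / W * (C * L) := by
            have := (ch i).total
            gcongr
    have h2 : ∑ i : Fin m, ∑ k, (ch i).w k / W * (b * (ch i).c k) ≤ m * (b / W * (C * L)) := by
      calc _ ≤ ∑ i : Fin m, (b / W * (C * L) : ℝ) := Finset.sum_le_sum fun i _ => h1 i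
        _ = _ := by simp
    have hB0' : (0 : ℝ) < B := by exact_mod_cast hB0
    have hb0' : (0 : ℝ) < b := by exact_mod_cast hb0
    have h3 : ∑ _s : Fin B, 1 / (B : ℝ) * (2 * B * (m * L)) = 2 * B * (m * L) := by
      simp
      field_simp
    rw [h3]
    push_cast
    have h4 : (C / W + 2 * B / b) * (b * (m * L)) = m * (b / W * (C * L)) + 2 * B * (m * L) := by
      field_simp
    rw [h4]
    linarith
  · intro χ hχ
    rw [Fintype.sum_sum_type, Fintype.sum_sigma]
    simp only [Sum.elim_inl, Sum.elim_inr]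
    have h := kill_step (N := N) (M := M) (A := fun i => (ch i).A) (fun i : Fin m => q i)
      (fun i => (ch i).diag) (fun i => hMq i i.2) (fun i => hcop i i.2)
      (κ := fun i => (ch i).K) (fun i => (ch i).w) (fun i => (ch i).w_nonneg)
      (fun i => (ch i).z) (fun i χ hχ => (ch i).kill χ hχ) W Q B hW (fun i => hQ i i.2)
      hB hQ1 (Nat.pos_of_ne_zero hN) χ hχ
    have h5 : ∑ s : Fin B, 1 / (B : ℝ) *
        ‖1 - χ ((s : ℕ) • (fun i : Fin m => (ch i).diag (g i)))‖ ^ 2
        = ∑ s ∈ Finset.range B, (1 / (B : ℝ)) *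
          ‖1 - χ (s • shiftGen N M (fun i : Fin m => q i) (fun i => (ch i).diag))‖ ^ 2 := by
      rw [Finset.sum_range]
      rfl
    rw [h5]
    exact h

end Crest.Agent.R210
end

-- ▼ part R210/Fourier
section

/-!
# R210 / Fourier
A character inequality on a finite abelian group implies an `ℓ¹` Poincaré type inequality for all
maps into `ℓ¹`.
-/

set_option autoImplicit false

namespace Crest.Agent.R210

open Finset ComplexConjugate

section Parseval

variable {A : Type*} [AddCommGroup A] [Fintype A]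

/-- orthogonality of characters -/
theorem sum_char_mul_conj (χ ψ : AddChar A ℂ) [Decidable (χ = ψ)] :
    ∑ a, χ a * conj (ψ a) = if χ = ψ then (Fintype.card A : ℂ) else 0 := by
  classical
  have h := AddChar.sum_eq_ite (χ - ψ)
  simp only [AddChar.sub_apply, AddChar.map_neg_eq_conj] at h
  rw [h]
  simp only [sub_eq_zero]

/-- Parseval for combinations of characters -/
theorem parseval (d : AddChar A ℂ → ℂ) :
    ∑ a, ‖∑ χ : AddChar A ℂ, d χ * χ a‖ ^ 2 =
      (Fintype.card A : ℝ) * ∑ χ : AddChar A ℂ, ‖d χ‖ ^ 2 := by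
  classical
  have key : (∑ a, (∑ χ : AddChar A ℂ, d χ * χ a) * conj (∑ χ : AddChar A ℂ, d χ * χ a)) =
      (Fintype.card A : ℂ) * ∑ χ : AddChar A ℂ, d χ * conj (d χ) := by
    calc (∑ a, (∑ χ : AddChar A ℂ, d χ * χ a) * conj (∑ χ : AddChar A ℂ, d χ * χ a))
        = ∑ a, ∑ χ : AddChar A ℂ, ∑ ψ : AddChar A ℂ,
            (d χ * conj (d ψ)) * (χ a * conj (ψ a)) := by
          apply Finset.sum_congr rfl
          intro a _
          rw [map_sum, Finset.sum_mul_sum]
          apply Finset.sum_congr rfl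
          intro χ _
          apply Finset.sum_congr rfl
          intro ψ _
          rw [map_mul]
          ring
      _ = ∑ χ : AddChar A ℂ, ∑ ψ : AddChar A ℂ,
            (d χ * conj (d ψ)) * ∑ a, (χ a * conj (ψ a)) := by
          rw [Finset.sum_comm]
          apply Finset.sum_congr rfl
          intro χ _
          rw [Finset.sum_comm]
          apply Finset.sum_congr rfl
          intro ψ _
          rw [Finset.mul_sum]
      _ = _ := by
          rw [Finset.mul_sum]
          apply Finset.sum_congr rfl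
          intro χ _
          simp only [sum_char_mul_conj]
          rw [Finset.sum_eq_single χ]
          · simp
            ring
          · intro ψ _ hne
            rw [if_neg hne.symm, mul_zero]
          · intro h
            exact absurd (Finset.mem_univ _) h
  have h2 : ∀ z : ℂ, z * conj z = ((‖z‖ ^ 2 : ℝ) : ℂ) := by
    intro z
    rw [Complex.mul_conj, Complex.normSq_eq_norm_sq]
  simp only [h2] at key
  exact_mod_cast key

/-- the quadratic form of a translation -/
theorem exists_fourier (f : A → ℂ) :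
    ∃ d : AddChar A ℂ → ℂ, ∀ z : A, ∑ a, ‖f a - f (a + z)‖ ^ 2 =
      (Fintype.card A : ℝ) * ∑ χ : AddChar A ℂ, ‖d χ‖ ^ 2 * ‖1 - χ z‖ ^ 2 := by
  classical
  refine ⟨fun χ => (AddChar.complexBasis A).repr f χ, fun z => ?_⟩
  have hf : ∀ a, f a = ∑ χ : AddChar A ℂ, (AddChar.complexBasis A).repr f χ * χ a := by
    intro a
    have h := (AddChar.complexBasis A).sum_repr f
    have h' := congrFun h a
    rw [Finset.sum_apply] at h'
    rw [← h']
    apply Finset.sum_congr rfl
    intro χ _
    rw [AddChar.complexBasis_apply]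
    simp
  have h1 : ∀ a, f a - f (a + z) =
      ∑ χ : AddChar A ℂ, ((AddChar.complexBasis A).repr f χ * (1 - χ z)) * χ a := by
    intro a
    rw [hf a, hf (a + z), ← Finset.sum_sub_distrib]
    apply Finset.sum_congr rfl
    intro χ _
    rw [AddChar.map_add_eq_mul]
    ring
  calc ∑ a, ‖f a - f (a + z)‖ ^ 2
      = ∑ a, ‖∑ χ : AddChar A ℂ,
          ((AddChar.complexBasis A).repr f χ * (1 - χ z)) * χ a‖ ^ 2 := by
        apply Finset.sum_congr rfl
        intro a _
        rw [h1 a]
    _ = _ := by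
        rw [parseval (fun χ => (AddChar.complexBasis A).repr f χ * (1 - χ z))]
        congr 1
        apply Finset.sum_congr rfl
        intro χ _
        rw [norm_mul, mul_pow]

variable {κ : Type*} {s : Finset κ} {w : κ → ℝ} {z : κ → A} {Z : A} {C : ℝ}

/-- quadratic inequality for complex functions -/
theorem sq_ineq (h : ∀ χ : AddChar A ℂ, ‖1 - χ Z‖ ^ 2 ≤ C * ∑ k ∈ s, w k * ‖1 - χ (z k)‖ ^ 2)
    (f : A → ℂ) :
    ∑ a, ‖f a - f (a + Z)‖ ^ 2 ≤ C * ∑ k ∈ s, w k * ∑ a, ‖f a - f (a + z k)‖ ^ 2 := by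
  obtain ⟨d, hd⟩ := exists_fourier f
  rw [hd Z]
  simp only [hd]
  calc (Fintype.card A : ℝ) * ∑ χ : AddChar A ℂ, ‖d χ‖ ^ 2 * ‖1 - χ Z‖ ^ 2
      ≤ (Fintype.card A : ℝ) * ∑ χ : AddChar A ℂ,
          ‖d χ‖ ^ 2 * (C * ∑ k ∈ s, w k * ‖1 - χ (z k)‖ ^ 2) := by
        gcongr with χ
        exact h χ
    _ = C * ∑ k ∈ s, w k * ((Fintype.card A : ℝ) *
          ∑ χ : AddChar A ℂ, ‖d χ‖ ^ 2 * ‖1 - χ (z k)‖ ^ 2) := by
        simp only [Finset.mul_sum]
        rw [Finset.sum_comm]
        apply Finset.sum_congr rfl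
        intro k _
        apply Finset.sum_congr rfl
        intro χ _
        ring

/-- inequality for sets -/
theorem cut_ineq (h : ∀ χ : AddChar A ℂ, ‖1 - χ Z‖ ^ 2 ≤ C * ∑ k ∈ s, w k * ‖1 - χ (z k)‖ ^ 2)
    (p : A → Prop) [DecidablePred p] :
    ∑ a, |(if p a then (1:ℝ) else 0) - (if p (a + Z) then (1:ℝ) else 0)| ≤
      C * ∑ k ∈ s, w k * ∑ a, |(if p a then (1:ℝ) else 0) - (if p (a + z k) then (1:ℝ) else 0)| := by
  have key := sq_ineq h (fun a => if p a then (1:ℂ) else 0)
  have e : ∀ a b : A, ‖(if p a then (1:ℂ) else 0) - (if p b then (1:ℂ) else 0)‖ ^ 2 =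
      |(if p a then (1:ℝ) else 0) - (if p b then (1:ℝ) else 0)| := by
    intro a b
    split_ifs <;> simp
  simpa only [e] using key

end Parseval

section Cut

/-- layer cake: `|x - y|` as an integral of cut functions -/
theorem abs_sub_eq_integral (x y : ℝ) :
    |x - y| = ∫ t, (Set.uIoc x y).indicator (fun _ => (1:ℝ)) t := by
  rw [MeasureTheory.integral_indicator measurableSet_uIoc]
  simp [MeasureTheory.Measure.real, Real.volume_uIoc, abs_sub_comm]

theorem indicator_uIoc (x y t : ℝ) :
    (Set.uIoc x y).indicator (fun _ => (1:ℝ)) t =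
      |(if t ≤ x then (1:ℝ) else 0) - (if t ≤ y then (1:ℝ) else 0)| := by
  by_cases h : t ∈ Set.uIoc x y
  · rw [Set.indicator_of_mem h]
    rw [Set.mem_uIoc] at h
    rcases h with ⟨h1, h2⟩ | ⟨h1, h2⟩
    · rw [if_neg (by linarith), if_pos h2]; simp
    · rw [if_pos h2, if_neg (by linarith)]; simp
  · rw [Set.indicator_of_notMem h]
    rw [Set.mem_uIoc] at h
    push Not at h
    by_cases h1 : t ≤ x
    · have h2 : t ≤ y := by
        by_contra h3
        push Not at h3
        linarith [h.2 h3]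
      simp [h1, h2]
    · have h2 : ¬ t ≤ y := by
        intro h3
        push Not at h1
        linarith [h.1 h1]
      simp [h1, h2]

theorem integrable_uIoc (x y : ℝ) :
    MeasureTheory.Integrable (fun t => (Set.uIoc x y).indicator (fun _ => (1:ℝ)) t) := by
  rw [MeasureTheory.integrable_indicator_iff measurableSet_uIoc]
  apply MeasureTheory.integrableOn_const
  · rw [Real.volume_uIoc]; exact ENNReal.ofReal_ne_top
  · simp

variable {A : Type*} [AddCommGroup A] [Fintype A]
variable {κ : Type*} {s : Finset κ} {w : κ → ℝ} {z : κ → A} {Z : A} {C : ℝ}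

/-- inequality for real functions -/
theorem real_ineq
    (h : ∀ χ : AddChar A ℂ, ‖1 - χ Z‖ ^ 2 ≤ C * ∑ k ∈ s, w k * ‖1 - χ (z k)‖ ^ 2)
    (f : A → ℝ) :
    ∑ a, |f a - f (a + Z)| ≤ C * ∑ k ∈ s, w k * ∑ a, |f a - f (a + z k)| := by
  have e1 : ∀ y : A, ∑ a, |f a - f (a + y)| =
      ∫ t, ∑ a, (Set.uIoc (f a) (f (a + y))).indicator (fun _ => (1:ℝ)) t := by
    intro y
    rw [MeasureTheory.integral_finsetSum _ (fun a _ => integrable_uIoc _ _)]
    apply Finset.sum_congr rfl
    intro a _
    rw [abs_sub_eq_integral]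
  have hint : ∀ y : A, MeasureTheory.Integrable (fun t : ℝ =>
      ∑ a, (Set.uIoc (f a) (f (a + y))).indicator (fun _ => (1:ℝ)) t) :=
    fun y => MeasureTheory.integrable_finsetSum _ (fun a _ => integrable_uIoc _ _)
  have e2 : C * ∑ k ∈ s, w k * ∑ a, |f a - f (a + z k)| =
      ∫ t, C * ∑ k ∈ s, w k *
        ∑ a, (Set.uIoc (f a) (f (a + z k))).indicator (fun _ => (1:ℝ)) t := by
    rw [MeasureTheory.integral_const_mul, MeasureTheory.integral_finsetSum]
    · congr 1
      apply Finset.sum_congr rfl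
      intro k _
      rw [MeasureTheory.integral_const_mul, e1]
    · intro k _
      exact (hint _).const_mul _
  rw [e1, e2]
  apply MeasureTheory.integral_mono (hint _)
  · apply MeasureTheory.Integrable.const_mul
    apply MeasureTheory.integrable_finsetSum
    intro k _
    exact (hint _).const_mul _
  · intro t
    simp only [indicator_uIoc]
    exact cut_ineq h (fun a => t ≤ f a)

/-- **main inequality** for maps into real `ℓ¹`. -/
theorem l1_ineq
    (h : ∀ χ : AddChar A ℂ, ‖1 - χ Z‖ ^ 2 ≤ C * ∑ k ∈ s, w k * ‖1 - χ (z k)‖ ^ 2)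
    (f : A → lp (fun _ : ℕ => ℝ) 1) :
    ∑ a, ‖f a - f (a + Z)‖ ≤ C * ∑ k ∈ s, w k * ∑ a, ‖f a - f (a + z k)‖ := by
  have hs : ∀ a b : A, HasSum (fun n => |f a n - f b n|) ‖f a - f b‖ := by
    intro a b
    have := lp.hasSum_norm (p := 1) (by simp) (f a - f b)
    simpa using this
  have h1 : ∀ y : A, HasSum (fun n => ∑ a, |f a n - f (a + y) n|) (∑ a, ‖f a - f (a + y)‖) :=
    fun y => hasSum_sum fun a _ => hs _ _
  have h2 : HasSum (fun n => C * ∑ k ∈ s, w k * ∑ a, |f a n - f (a + z k) n|)
      (C * ∑ k ∈ s, w k * ∑ a, ‖f a - f (a + z k)‖) :=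
    (hasSum_sum fun k _ => (h1 (z k)).mul_left (w k)).mul_left C
  exact hasSum_le (fun n => real_ineq h (fun a => f a n)) (h1 Z) h2

end Cut

section Corollaries

variable {A : Type} [AddCommGroup A] [Fintype A] {K : Type} [Fintype K]



/-- version for maps into real `ℓ¹` -/
theorem fourier_lp
    (Z : A) (z : K → A) (w : K → ℝ)
    (h : ∀ χ : AddChar A ℂ, ‖1 - χ Z‖ ^ 2 ≤ ∑ k, w k * ‖1 - χ (z k)‖ ^ 2)
    (f : A → lp (fun _ : ℕ => ℝ) 1) :
    ∑ a, ‖f a - f (a + Z)‖ ≤ ∑ k, w k * ∑ a, ‖f a - f (a + z k)‖ := by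
  have := l1_ineq (s := Finset.univ) (C := 1) (w := w) (z := z) (Z := Z)
    (fun χ => by rw [one_mul]; exact h χ) f
  rwa [one_mul] at this

end Corollaries

end Crest.Agent.R210
end

-- ▼ part R210/Final
section

/-!
# From a level structure to a distortion bound
-/

set_option autoImplicit false
open Crest.GeometryTopology.EditDistance

namespace Crest.Agent.R210

theorem distortion_lower {A : Type} [AddCommGroup A] [Fintype A] {K : Type} [Fintype K]
    (n : ℕ) (Y : A → List Bool) (hlen : ∀ a, (Y a).length = n)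
    (Z : A) (z : K → A) (w c : K → ℝ) (hw : ∀ k, 0 ≤ w k)
    (hc : ∀ k a, (editDist (Y a) (Y (a + z k)) : ℝ) ≤ c k)
    (dfar : ℝ) (hd : 0 < dfar) (hfar : ∀ a, dfar ≤ (editDist (Y a) (Y (a + Z)) : ℝ))
    (hchar : ∀ χ : AddChar A ℂ, ‖1 - χ Z‖ ^ 2 ≤ ∑ k, w k * ‖1 - χ (z k)‖ ^ 2)
    (f : List Bool → lp (fun _ : ℕ => ℝ) 1) (s D : ℝ) (hs : 0 < s)
    (hf : ∀ x y : List Bool, x.length = n → y.length = n → x ≠ y →
      s * (editDist x y : ℝ) ≤ ‖f x - f y‖ ∧ ‖f x - f y‖ ≤ D * s * (editDist x y : ℝ)) :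
    dfar ≤ D * ∑ k, w k * c k := by
  have hne : ∀ a, Y a ≠ Y (a + Z) := by
    intro a h
    have h1 := hfar a
    rw [h, editDist_self] at h1
    simp at h1
    linarith
  have hD : 0 < D := by
    have h1 := hf (Y 0) (Y (0 + Z)) (hlen _) (hlen _) (hne 0)
    have h2 := hfar 0
    have h3 : 0 < (editDist (Y 0) (Y (0 + Z)) : ℝ) := by linarith
    have h4 : s * (editDist (Y 0) (Y (0 + Z)) : ℝ) ≤ D * (s * (editDist (Y 0) (Y (0 + Z)) : ℝ)) := by
      have := h1.1.trans h1.2
      linarith
    by_contra hD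
    have h5 : 0 < s * (editDist (Y 0) (Y (0 + Z)) : ℝ) := by positivity
    nlinarith
  have hcard : (0 : ℝ) < Fintype.card A := by exact_mod_cast Fintype.card_pos
  have key := fourier_lp Z z w hchar (fun a => f (Y a))
  have h1 : (Fintype.card A : ℝ) * (s * dfar) ≤ ∑ a, ‖f (Y a) - f (Y (a + Z))‖ := by
    calc (Fintype.card A : ℝ) * (s * dfar) = ∑ _a : A, s * dfar := by simp
      _ ≤ _ := Finset.sum_le_sum fun a _ => by
        refine le_trans ?_ (hf (Y a) (Y (a + Z)) (hlen _) (hlen _) (hne a)).1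
        have := hfar a
        gcongr
  have h2 : ∑ k, w k * ∑ a, ‖f (Y a) - f (Y (a + z k))‖
      ≤ ∑ k, w k * ((Fintype.card A : ℝ) * (D * s * c k)) := by
    apply Finset.sum_le_sum
    intro k _
    apply mul_le_mul_of_nonneg_left _ (hw k)
    calc ∑ a, ‖f (Y a) - f (Y (a + z k))‖ ≤ ∑ _a : A, D * s * c k := by
          apply Finset.sum_le_sum
          intro a _
          have hck := hc k a
          by_cases h : Y a = Y (a + z k)
          · rw [h]
            simp only [sub_self, norm_zero]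
            have : 0 ≤ c k := le_trans (Nat.cast_nonneg _) hck
            positivity
          · refine le_trans (hf _ _ (hlen _) (hlen _) h).2 ?_
            gcongr
      _ = _ := by simp
  have h3 : (Fintype.card A : ℝ) * (s * dfar) ≤ (Fintype.card A : ℝ) * (s * (D * ∑ k, w k * c k)) := by
    calc _ ≤ _ := h1
      _ ≤ _ := key
      _ ≤ _ := h2
      _ = _ := by
        rw [Finset.mul_sum, Finset.mul_sum, Finset.mul_sum]
        apply Finset.sum_congr rfl
        intro k _
        ring
  exact le_of_mul_le_mul_left (le_of_mul_le_mul_left h3 hcard) hs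

theorem final_of_lvl {S : Type} [Fintype S] {N L h : ℕ} {κ C : ℝ} (hN2 : 2 ∣ N) (hN0 : N ≠ 0)
    (hcard : Fintype.card S ≤ 2 ^ h) (hκ : 0 < κ) (hC : 0 < C) (hL : 0 < L)
    (Lv : Lvl S N 2 L κ C)
    (f : List Bool → lp (fun _ : ℕ => ℝ) 1) (s D : ℝ) (hs : 0 < s)
    (hf : ∀ x y : List Bool, x.length = (2 * h + 3) * L → y.length = (2 * h + 3) * L → x ≠ y →
      s * (editDist x y : ℝ) ≤ ‖f x - f y‖ ∧ ‖f x - f y‖ ≤ D * s * (editDist x y : ℝ)) :
    κ / (4 * ((2 * h + 3 : ℕ) : ℝ) * C) ≤ D := by
  have : NeZero N := ⟨hN0⟩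
  obtain ⟨enc, henc, hlow⟩ := exists_code S h hcard
  set δ : ZMod N := ((N / 2 : ℕ) : ZMod N) with hδ
  have hδ0 : δ ≠ 0 := by
    rw [hδ, Ne, ZMod.natCast_eq_zero_iff]
    intro hdvd
    have h1 : 0 < N / 2 := by
      obtain ⟨n', rfl⟩ := hN2
      omega
    have := Nat.le_of_dvd h1 hdvd
    omega
  have h2δ : ((2 : ℕ) : ZMod N) * δ = 0 := by
    rw [hδ, ← Nat.cast_mul, Nat.mul_div_cancel' hN2, ZMod.natCast_self]
  have hκL : 0 < κ * L := by positivity
  have key := distortion_lower ((2 * h + 3) * L) (fun a => (Lv.Y a).flatMap enc)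
    (fun a => ?_) (Lv.diag δ) Lv.z (fun k => 4 * Lv.w k)
    (fun k => ((2 * h + 3 : ℕ) : ℝ) * Lv.c k)
    (fun k => mul_nonneg (by norm_num) (Lv.w_nonneg k)) (fun k a => ?_)
    (κ * L) hκL (fun a => ?_) (fun χ => ?_) f s D hs hf
  · have hsum : ∑ k, 4 * Lv.w k * (((2 * h + 3 : ℕ) : ℝ) * Lv.c k)
        = 4 * ((2 * h + 3 : ℕ) : ℝ) * ∑ k, Lv.w k * Lv.c k := by
      rw [Finset.mul_sum]
      apply Finset.sum_congr rfl
      intro k _; ring
    rw [hsum] at key
    have htot := Lv.total
    have hℓ : (0 : ℝ) < ((2 * h + 3 : ℕ) : ℝ) := by positivity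
    set T := ∑ k, Lv.w k * Lv.c k with hT
    have hT0 : 0 ≤ T := Finset.sum_nonneg fun k _ => mul_nonneg (Lv.w_nonneg k)
      (le_trans (Nat.cast_nonneg _) (Lv.cost k 0))
    have hD : 0 < D := by
      by_contra hD
      have : D * (4 * ((2 * h + 3 : ℕ) : ℝ) * T) ≤ 0 :=
        mul_nonpos_of_nonpos_of_nonneg (not_lt.mp hD) (by positivity)
      linarith
    rw [div_le_iff₀ (by positivity)]
    have hL' : (0 : ℝ) < L := by exact_mod_cast hL
    have h3 : D * (4 * ((2 * h + 3 : ℕ) : ℝ) * T) ≤ D * (4 * ((2 * h + 3 : ℕ) : ℝ) * (C * L)) := by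
      gcongr
    have h4 : κ * L ≤ (D * (4 * ((2 * h + 3 : ℕ) : ℝ) * C)) * L := by
      calc κ * L ≤ _ := key
        _ ≤ _ := h3
        _ = _ := by ring
    exact le_of_mul_le_mul_right h4 hL'
  · rw [List.length_flatMap]
    simp only [henc]
    simp [Lv.len, mul_comm]
  · have h1 := editDist_flatMap_le enc (2 * h + 3) henc (Lv.Y a) (Lv.Y (a + Lv.z k))
    calc ((editDist ((Lv.Y a).flatMap enc) ((Lv.Y (a + Lv.z k)).flatMap enc) : ℕ) : ℝ)
        ≤ (((2 * h + 3) * editDist (Lv.Y a) (Lv.Y (a + Lv.z k)) : ℕ) : ℝ) := by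
          exact_mod_cast h1
      _ = ((2 * h + 3 : ℕ) : ℝ) * (editDist (Lv.Y a) (Lv.Y (a + Lv.z k)) : ℝ) := by
          push_cast; ring
      _ ≤ _ := by
          have := Lv.cost k a
          gcongr
  · obtain ⟨w, hw1, hw2, hw3⟩ := hlow (Lv.Y a) (Lv.Y (a + Lv.diag δ))
    have h1 := Lv.far a δ h2δ hδ0 w hw1 hw2
    rw [Lv.len] at hw3
    have h2 : (L : ℝ) ≤ w.length + editDist ((Lv.Y a).flatMap enc)
        ((Lv.Y (a + Lv.diag δ)).flatMap enc) := by exact_mod_cast hw3
    linarith
  · by_cases hχ : χ (Lv.diag δ) = 1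
    · rw [hχ]
      simp only [sub_self, norm_zero]
      have : 0 ≤ ∑ k, 4 * Lv.w k * ‖1 - χ (Lv.z k)‖ ^ 2 :=
        Finset.sum_nonneg fun k _ => mul_nonneg (mul_nonneg (by norm_num) (Lv.w_nonneg k))
          (by positivity)
      simpa using this
    · have h1 := Lv.kill χ hχ
      have h2 : ‖1 - χ (Lv.diag δ)‖ ≤ 2 := by
        calc ‖1 - χ (Lv.diag δ)‖ ≤ ‖(1 : ℂ)‖ + ‖χ (Lv.diag δ)‖ := norm_sub_le _ _
          _ = 2 := by rw [AddChar.norm_apply]; norm_num
      have h3 : ‖1 - χ (Lv.diag δ)‖ ^ 2 ≤ 4 := by nlinarith [norm_nonneg (1 - χ (Lv.diag δ))]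
      calc ‖1 - χ (Lv.diag δ)‖ ^ 2 ≤ 4 * 1 := by linarith
        _ ≤ 4 * ∑ k, Lv.w k * ‖1 - χ (Lv.z k)‖ ^ 2 := by gcongr
        _ = ∑ k, 4 * Lv.w k * ‖1 - χ (Lv.z k)‖ ^ 2 := by
          rw [Finset.mul_sum]; apply Finset.sum_congr rfl; intro k _; ring

end Crest.Agent.R210
end

-- ▼ part R210/Params
section

/-!
# Asymptotics of the parameters
-/

set_option autoImplicit false

namespace Crest.Agent.R210

open Real

/-- General asymptotic lemma: lengths `n k ≤ 2^(A k 4^k)`, distortions `≥ 2^(k 2^k / 2)`. -/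
theorem params_asymp (n : ℕ → ℕ) (E : ℕ → ℝ) (k₀ A : ℕ)
    (hn : ∀ k, k₀ ≤ k → n k ≤ 2 ^ (A * k * 4 ^ k))
    (hE : ∀ k, k₀ ≤ k → Real.exp (Real.log 2 * (k * 2 ^ k / 2)) ≤ E k) :
    ∃ c : ℝ, 0 < c ∧ ∃ d₀ : ℕ, ∀ d : ℕ, d₀ ≤ d → ∃ k, k₀ ≤ k ∧ n k ≤ d ∧
      Real.exp (c * Real.sqrt (Real.log d * Real.log (Real.log d))) ≤ E k := by
  -- WLOG A ≥ 1, k₀ ≥ 1
  obtain ⟨A', hA', hA1⟩ : ∃ A' : ℕ, A ≤ A' ∧ 1 ≤ A' := ⟨A + 1, by omega, by omega⟩
  obtain ⟨k₁, hk₁, hk1⟩ : ∃ k₁ : ℕ, k₀ ≤ k₁ ∧ 1 ≤ k₁ := ⟨k₀ + 1, by omega, by omega⟩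
  have hl2 : 0 < Real.log 2 := Real.log_pos (by norm_num)
  have hl2' : Real.log 2 ≤ 1 := by
    have := Real.log_two_lt_d9
    linarith
  set H : ℝ := Real.log (8 * A') + 3 with hH
  have hH3 : 3 ≤ H := by
    have : 0 ≤ Real.log (8 * A') := by
      apply Real.log_nonneg
      have : (1 : ℝ) ≤ A' := by exact_mod_cast hA1
      linarith
    linarith
  set K : ℝ := 8 * A' * H with hK
  have hA1' : (1 : ℝ) ≤ A' := by exact_mod_cast hA1
  have hKpos : 0 < K := by positivity
  refine ⟨Real.log 2 / 2 / Real.sqrt K, by positivity, 2 ^ (A' * k₁ * 4 ^ k₁), ?_⟩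
  intro d hd
  -- k = the largest k with 2^(A' k 4^k) ≤ d
  have hmono : ∀ a b : ℕ, a ≤ b → A' * a * 4 ^ a ≤ A' * b * 4 ^ b := by
    intro a b hab
    exact Nat.mul_le_mul (Nat.mul_le_mul_left _ hab) (Nat.pow_le_pow_right (by norm_num) hab)
  have hex : ∃ k, d < 2 ^ (A' * k * 4 ^ k) := by
    refine ⟨d, ?_⟩
    have h1 : d ≤ A' * d * 4 ^ d := by
      calc d = 1 * d * 1 := by ring
        _ ≤ A' * d * 4 ^ d := Nat.mul_le_mul (Nat.mul_le_mul_right _ hA1) (Nat.one_le_pow _ _ (by norm_num))
    calc d < 2 ^ d := Nat.lt_two_pow_self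
      _ ≤ 2 ^ (A' * d * 4 ^ d) := Nat.pow_le_pow_right (by norm_num) h1
  classical
  obtain ⟨k, hk, hk'⟩ : ∃ k, 2 ^ (A' * k * 4 ^ k) ≤ d ∧ d < 2 ^ (A' * (k + 1) * 4 ^ (k + 1)) := by
    have hspec := Nat.find_spec hex
    have hpos : Nat.find hex ≠ 0 := by
      intro h0
      rw [h0] at hspec
      have : 1 ≤ d := le_trans (Nat.one_le_pow _ _ (by norm_num)) hd
      simp at hspec
      omega
    obtain ⟨j, hj⟩ := Nat.exists_eq_succ_of_ne_zero hpos
    refine ⟨j, ?_, ?_⟩
    · have := Nat.find_min hex (m := j) (by omega)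
      omega
    · rw [hj] at hspec
      exact hspec
  have hkk : k₁ ≤ k := by
    by_contra hcon
    push Not at hcon
    have h1 := hmono (k + 1) k₁ hcon
    have h2 : 2 ^ (A' * (k + 1) * 4 ^ (k + 1)) ≤ 2 ^ (A' * k₁ * 4 ^ k₁) :=
      Nat.pow_le_pow_right (by norm_num) h1
    omega
  have hk1' : (1 : ℝ) ≤ k := by exact_mod_cast (hk1.trans hkk)
  refine ⟨k, hk₁.trans hkk, ?_, ?_⟩
  · refine (hn k (hk₁.trans hkk)).trans (le_trans ?_ hk)
    apply Nat.pow_le_pow_right (by norm_num)
    exact Nat.mul_le_mul_right _ (Nat.mul_le_mul_right _ hA')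
  refine le_trans ?_ (hE k (hk₁.trans hkk))
  apply Real.exp_le_exp.mpr
  have hd1 : (1 : ℝ) ≤ d := by
    have : 1 ≤ d := le_trans (Nat.one_le_pow _ _ (by norm_num)) hk
    exact_mod_cast this
  have hlogd : Real.log d ≤ 8 * A' * (k * 4 ^ k) := by
    have h1 : (d : ℝ) ≤ 2 ^ (A' * (k + 1) * 4 ^ (k + 1)) := by
      exact_mod_cast hk'.le
    have h2 : Real.log d ≤ Real.log (2 ^ (A' * (k + 1) * 4 ^ (k + 1))) :=
      Real.log_le_log (by linarith) h1
    rw [Real.log_pow] at h2
    push_cast at h2
    refine h2.trans ?_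
    have h3 : (A' : ℝ) * (k + 1) * 4 ^ (k + 1) * Real.log 2 ≤ A' * (k + 1) * 4 ^ (k + 1) * 1 := by
      apply mul_le_mul_of_nonneg_left hl2' (by positivity)
    refine h3.trans ?_
    have h4 : ((k : ℝ) + 1) ≤ 2 * k := by linarith
    calc (A' : ℝ) * (k + 1) * 4 ^ (k + 1) * 1 = (4 * A' * 4 ^ k) * (k + 1) := by ring
      _ ≤ (4 * A' * 4 ^ k) * (2 * k) := mul_le_mul_of_nonneg_left h4 (by positivity)
      _ = 8 * A' * (k * 4 ^ k) := by ring
  have hlogd0 : 0 ≤ Real.log d := Real.log_nonneg hd1
  have hloglog : Real.log (Real.log d) ≤ H * k := by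
    rcases hlogd0.eq_or_lt with h0 | h0
    · rw [← h0]; simp; positivity
    have h1 : Real.log (Real.log d) ≤ Real.log (8 * A' * (k * 4 ^ k)) := Real.log_le_log h0 hlogd
    refine h1.trans ?_
    rw [Real.log_mul (x := 8 * (A' : ℝ)) (y := k * 4 ^ k) (by positivity) (by positivity),
      Real.log_mul (x := (k : ℝ)) (y := 4 ^ k) (by positivity) (by positivity),
      Real.log_pow]
    have h2 : Real.log k ≤ k := by
      have := Real.log_le_sub_one_of_pos (show (0 : ℝ) < k by linarith)
      linarith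
    have h3 : Real.log 4 ≤ 2 := by
      rw [show (4 : ℝ) = 2 ^ 2 by norm_num, Real.log_pow]
      push_cast
      linarith
    have h4 : 0 ≤ Real.log (8 * A') := Real.log_nonneg (by linarith)
    have h5 : Real.log (8 * A') ≤ Real.log (8 * A') * k := le_mul_of_one_le_right h4 hk1'
    have h6 : (k : ℝ) * Real.log 4 ≤ k * 2 := mul_le_mul_of_nonneg_left h3 (by linarith)
    have h7 : H * k = Real.log (8 * A') * k + 3 * k := by rw [hH]; ring
    rw [h7]
    linarith
  have hprod : Real.log d * Real.log (Real.log d) ≤ K * (k * 2 ^ k) ^ 2 := by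
    calc Real.log d * Real.log (Real.log d) ≤ Real.log d * (H * k) :=
          mul_le_mul_of_nonneg_left hloglog hlogd0
      _ ≤ (8 * A' * (k * 4 ^ k)) * (H * k) := mul_le_mul_of_nonneg_right hlogd (by positivity)
      _ = K * (k * 2 ^ k) ^ 2 := by
          rw [hK, show (4 : ℝ) = 2 ^ 2 by norm_num, ← pow_mul]
          ring
  have hsqrt : Real.sqrt (Real.log d * Real.log (Real.log d)) ≤ Real.sqrt K * (k * 2 ^ k) := by
    calc Real.sqrt (Real.log d * Real.log (Real.log d)) ≤ Real.sqrt (K * (k * 2 ^ k) ^ 2) :=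
          Real.sqrt_le_sqrt hprod
      _ = Real.sqrt K * (k * 2 ^ k) := by
          rw [Real.sqrt_mul hKpos.le, Real.sqrt_sq (by positivity)]
  have hsK : 0 < Real.sqrt K := Real.sqrt_pos.mpr hKpos
  calc Real.log 2 / 2 / Real.sqrt K * Real.sqrt (Real.log d * Real.log (Real.log d))
      ≤ Real.log 2 / 2 / Real.sqrt K * (Real.sqrt K * (k * 2 ^ k)) :=
        mul_le_mul_of_nonneg_left hsqrt (by positivity)
    _ = Real.log 2 * (k * 2 ^ k / 2) := by
        field_simp

/-- code length for `h = 2 k 2^k + 1 + 4 k 8^k` bits per letter -/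
def codeLen (k : ℕ) : ℕ := 2 * (2 * k * 2 ^ k + 1 + 4 * k * 8 ^ k) + 3

theorem codeLen_le (k : ℕ) (hk : 1 ≤ k) : codeLen k ≤ 2 ^ (4 * k + 5) := by
  unfold codeLen
  have h1 : k ≤ 2 ^ k := Nat.lt_two_pow_self.le
  have h2 : (2 : ℕ) ^ k ≤ 8 ^ k := Nat.pow_le_pow_left (by norm_num) k
  have h3 : 1 ≤ (8 : ℕ) ^ k := Nat.one_le_pow _ _ (by norm_num)
  have h4 : (2 : ℕ) ^ (4 * k + 5) = 32 * (2 ^ k * 8 ^ k) := by
    rw [pow_add, pow_mul, ← mul_pow]; norm_num; ring
  rw [h4]
  have h5 : k * 2 ^ k ≤ 2 ^ k * 8 ^ k := Nat.mul_le_mul h1 h2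
  have h6 : k * 8 ^ k ≤ 2 ^ k * 8 ^ k := Nat.mul_le_mul_right _ h1
  have h7 : 1 ≤ 2 ^ k * 8 ^ k := by
    have : 1 ≤ (2 : ℕ) ^ k := Nat.one_le_pow _ _ (by norm_num)
    nlinarith
  nlinarith

theorem params_len (k : ℕ) (hk : 1 ≤ k) :
    codeLen k * ((2 ^ (5 + 9 * k * 2 ^ k)) * 4 ^ k) ^ (2 ^ k) ≤ 2 ^ (25 * k * 4 ^ k) := by
  have h1 : ((2 ^ (5 + 9 * k * 2 ^ k)) * 4 ^ k) ^ (2 ^ k) =
      2 ^ ((5 + 9 * k * 2 ^ k + 2 * k) * 2 ^ k) := by
    rw [show (4 : ℕ) = 2 ^ 2 by norm_num, ← pow_mul, ← pow_add, ← pow_mul]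
  rw [h1]
  refine (Nat.mul_le_mul_right _ (codeLen_le k hk)).trans ?_
  rw [← pow_add]
  apply Nat.pow_le_pow_right (by norm_num)
  have h4 : (4 : ℕ) ^ k = 2 ^ k * 2 ^ k := by rw [← mul_pow]; norm_num
  rw [h4]
  have h2 : 1 ≤ (2 : ℕ) ^ k := Nat.one_le_pow _ _ (by norm_num)
  set x := (2 : ℕ) ^ k with hx
  have h5 : x ≤ x * x := Nat.le_mul_self x
  have h6 : 1 ≤ x * x := h2.trans h5
  have e1 : 4 * k ≤ 4 * (k * (x * x)) := Nat.mul_le_mul_left _ (Nat.le_mul_of_pos_right k (by omega))
  have e2 : 1 ≤ k * (x * x) := Nat.mul_le_mul hk h6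
  have e3 : x ≤ k * (x * x) := h5.trans (Nat.le_mul_of_pos_left _ (by omega))
  have e4 : k * x ≤ k * (x * x) := Nat.mul_le_mul_left _ h5
  calc 4 * k + 5 + (5 + 9 * k * x + 2 * k) * x = 4 * k + 5 + 5 * x + 9 * (k * (x * x)) + 2 * (k * x) := by ring
    _ ≤ 25 * (k * (x * x)) := by omega
    _ = 25 * k * (x * x) := by ring

theorem params_dist (k : ℕ) (hk : 6 ≤ k) :
    Real.exp (Real.log 2 * (k * 2 ^ k / 2)) ≤
      ((2 : ℝ) ^ k / 4) ^ (2 ^ k) / (4 * (codeLen k : ℝ)) := by
  have hl2 : 0 < Real.log 2 := Real.log_pos (by norm_num)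
  have hcl : (codeLen k : ℝ) ≤ 2 ^ (4 * k + 5) := by
    exact_mod_cast codeLen_le k (by omega)
  have hcl0 : 0 < (codeLen k : ℝ) := by
    have : 0 < codeLen k := by unfold codeLen; omega
    exact_mod_cast this
  rw [le_div_iff₀ (by positivity)]
  have e1 : ((2 : ℝ) ^ k / 4) ^ (2 ^ k) = Real.exp (Real.log 2 * ((k - 2) * 2 ^ k)) := by
    have : ((2 : ℝ) ^ k / 4) = Real.exp (Real.log 2 * (k - 2)) := by
      rw [mul_sub, Real.exp_sub, mul_comm, Real.exp_nat_mul, Real.exp_log (by norm_num),
        mul_comm, show (2 : ℝ) = ((2 : ℕ) : ℝ) by norm_num, Real.exp_nat_mul]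
      norm_num [Real.exp_log]
    rw [this, ← Real.exp_nat_mul]
    congr 1
    push_cast
    ring
  rw [e1]
  have e2 : (4 : ℝ) * codeLen k ≤ Real.exp (Real.log 2 * (4 * k + 7)) := by
    calc (4 : ℝ) * codeLen k ≤ 4 * 2 ^ (4 * k + 5) := by linarith
      _ = 2 ^ (4 * k + 7) := by rw [pow_add, pow_add]; norm_num; ring
      _ = Real.exp (Real.log 2 * (4 * k + 7)) := by
          rw [← Real.rpow_natCast, Real.rpow_def_of_pos (by norm_num)]
          push_cast
          rfl
  refine (mul_le_mul_of_nonneg_left e2 (Real.exp_pos _).le).trans ?_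
  rw [← Real.exp_add]
  apply Real.exp_le_exp.mpr
  rw [← mul_add]
  apply mul_le_mul_of_nonneg_left _ hl2.le
  have h8 : ∀ n : ℕ, 6 ≤ n → 4 * n + 7 ≤ 2 ^ n := by
    intro n hn
    induction n, hn using Nat.le_induction with
    | base => norm_num
    | succ n hn ih => rw [pow_succ]; omega
  have h9 : (4 * (k : ℝ) + 7) ≤ 2 ^ k := by exact_mod_cast h8 k hk
  have hk6 : (6 : ℝ) ≤ k := by exact_mod_cast hk
  have hpos : (0 : ℝ) < 2 ^ k := by positivity
  nlinarith

end Crest.Agent.R210
end

-- ▼ part R210/Primes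
section

/-!
# Enough small primes: injective family of `2^k * 4^k` odd primes below `2^(4k)`
-/

set_option autoImplicit false

namespace Crest.Agent.R210

open Real

/-- There are more than `8^k` primes up to `16^k`. -/
theorem eight_pow_lt_primeCounting (k : ℕ) (hk : 5 ≤ k) :
    8 ^ k < Nat.primeCounting (16 ^ k) := by
  have h1 := Chebyshev.psi_ge (16 ^ k)
  have h2 := Chebyshev.psi_le_primeCounting_mul_log (16 ^ k)
  have hl2 : 0 < Real.log 2 := Real.log_pos (by norm_num)
  have hlog : Real.log ((16 ^ k : ℕ) : ℝ) = 4 * k * Real.log 2 := by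
    push_cast
    rw [Real.log_pow, show (16 : ℝ) = 2 ^ 4 by norm_num, Real.log_pow]
    push_cast
    ring
  have hlog1 : Real.log (((16 ^ k : ℕ) : ℝ) + 1) ≤ (4 * k + 1) * Real.log 2 := by
    have : Real.log (((16 ^ k : ℕ) : ℝ) + 1) ≤ Real.log ((2 : ℝ) ^ (4 * k + 1)) := by
      apply Real.log_le_log (by positivity)
      push_cast
      rw [pow_add, pow_mul]
      have : (1 : ℝ) ≤ 16 ^ k := one_le_pow₀ (by norm_num)
      norm_num
      linarith
    rw [Real.log_pow] at this
    push_cast at this ⊢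
    exact this
  rw [hlog] at h2
  have h3 : ((16 ^ k : ℕ) : ℝ) * Real.log 2 - (4 * k + 1) * Real.log 2 ≤
      (Nat.primeCounting (16 ^ k) : ℝ) * (4 * k * Real.log 2) := by linarith
  have h4 : ((16 ^ k : ℕ) : ℝ) - (4 * k + 1) ≤
      (Nat.primeCounting (16 ^ k) : ℝ) * (4 * k) := by
    have h5 : (((16 ^ k : ℕ) : ℝ) - (4 * k + 1)) * Real.log 2 ≤
      ((Nat.primeCounting (16 ^ k) : ℝ) * (4 * k)) * Real.log 2 := by linarith
    exact le_of_mul_le_mul_right h5 hl2
  by_contra hcon
  push Not at hcon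
  have h6 : ((16 ^ k : ℕ) : ℝ) - (4 * k + 1) ≤ (8 : ℝ) ^ k * (4 * k) := by
    refine h4.trans ?_
    apply mul_le_mul_of_nonneg_right _ (by positivity)
    exact_mod_cast hcon
  have h7 : (16 ^ k : ℕ) ≤ 8 ^ k * (4 * k) + (4 * k + 1) := by
    have : ((16 ^ k : ℕ) : ℝ) ≤ ((8 ^ k * (4 * k) + (4 * k + 1) : ℕ) : ℝ) := by
      push_cast at h6 ⊢
      linarith
    exact_mod_cast this
  have h8 : ∀ n : ℕ, 5 ≤ n → 4 * n + 2 ≤ 2 ^ n := by
    intro n hn
    induction n, hn using Nat.le_induction with
    | base => norm_num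
    | succ n hn ih => rw [pow_succ]; omega
  have h9 := h8 k hk
  have h10 : (16 : ℕ) ^ k = 8 ^ k * 2 ^ k := by rw [← mul_pow]; norm_num
  have h11 : 8 ^ k * (4 * k + 2) ≤ 8 ^ k * 2 ^ k := Nat.mul_le_mul_left _ h9
  have h12 : 4 * k + 2 ≤ 8 ^ k := h9.trans (Nat.pow_le_pow_left (by norm_num) k)
  rw [h10] at h7
  nlinarith

/-- An explicit injective family of `8^k` odd primes up to `16^k`. -/
noncomputable def oddPrime (j : ℕ) : ℕ := Nat.nth Nat.Prime (j + 1)

theorem oddPrime_prime (j : ℕ) : (oddPrime j).Prime := Nat.prime_nth_prime _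

theorem oddPrime_injective : Function.Injective oddPrime := by
  intro i j h
  have := Nat.nth_injective Nat.infinite_setOfPred_prime h
  omega

theorem two_lt_oddPrime (j : ℕ) : 2 < oddPrime j := by
  have h : Nat.nth Nat.Prime 0 < Nat.nth Nat.Prime (j + 1) :=
    Nat.nth_strictMono Nat.infinite_setOfPred_prime (Nat.succ_pos j)
  rwa [Nat.nth_prime_zero_eq_two] at h

theorem oddPrime_ne_two (j : ℕ) : oddPrime j ≠ 2 := (two_lt_oddPrime j).ne'

theorem oddPrime_le {k : ℕ} (hk : 5 ≤ k) {j : ℕ} (hj : j < 8 ^ k) : oddPrime j ≤ 16 ^ k := by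
  have h := eight_pow_lt_primeCounting k hk
  have h2 : j + 1 < Nat.count Nat.Prime (16 ^ k + 1) := by
    have : Nat.primeCounting (16 ^ k) = Nat.count Nat.Prime (16 ^ k + 1) := rfl
    omega
  have h3 := Nat.nth_lt_of_lt_count h2
  unfold oddPrime
  omega

/-- The primes `q(r,i)` for `r < 2^k`, `i < 4^k`. -/
theorem exists_primes : ∃ k₀ : ℕ, ∀ k ≥ k₀, ∃ q : ℕ → ℕ → ℕ,
    (∀ r i, r < 2 ^ k → i < 4 ^ k → (q r i).Prime ∧ q r i ≠ 2 ∧ q r i ≤ 2 ^ (4 * k)) ∧
    (∀ r i r' i', r < 2 ^ k → i < 4 ^ k → r' < 2 ^ k → i' < 4 ^ k →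
      q r i = q r' i' → r = r' ∧ i = i') := by
  refine ⟨5, fun k hk => ⟨fun r i => oddPrime (r * 4 ^ k + i), ?_, ?_⟩⟩
  · intro r i hr hi
    refine ⟨oddPrime_prime _, oddPrime_ne_two _, ?_⟩
    rw [pow_mul]
    apply oddPrime_le hk
    have h8 : (8 : ℕ) ^ k = 2 ^ k * 4 ^ k := by rw [← mul_pow]; norm_num
    rw [h8]
    calc r * 4 ^ k + i < r * 4 ^ k + 4 ^ k := by omega
      _ = (r + 1) * 4 ^ k := by ring
      _ ≤ 2 ^ k * 4 ^ k := Nat.mul_le_mul_right _ hr
  · intro r i r' i' _ hi _ hi' h
    have h1 := oddPrime_injective h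
    have hpos : 0 < 4 ^ k := by positivity
    have hr : (r * 4 ^ k + i) / 4 ^ k = r := by
      rw [Nat.add_comm, Nat.add_mul_div_right _ _ hpos, Nat.div_eq_of_lt hi, zero_add]
    have hr' : (r' * 4 ^ k + i') / 4 ^ k = r' := by
      rw [Nat.add_comm, Nat.add_mul_div_right _ _ hpos, Nat.div_eq_of_lt hi', zero_add]
    have : r = r' := by rw [← hr, ← hr', h1]
    subst this
    exact ⟨rfl, by omega⟩

end Crest.Agent.R210
end

-- ▼ part R210/Main

/-!
# The main theorem: assembly
-/

set_option autoImplicit false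
open Crest.GeometryTopology.EditDistance

namespace Crest.Agent.R210

theorem tower_exists {t m b B W Q N : ℕ} (q : ℕ → ℕ → ℕ)
    (hN : N = 2 * ∏ r ∈ Finset.range t, ∏ i ∈ Finset.range m, q r i) (hm : 6 ≤ m)
    (hprime : ∀ r i, r < t → i < m → (q r i).Prime ∧ q r i ≠ 2 ∧ q r i ≤ Q)
    (hinj : ∀ r i r' i', r < t → i < m → r' < t → i' < m →
      q r i = q r' i' → r = r' ∧ i = i')
    (hb : b ≤ 2 ^ (m / 2)) (hW : 2 ≤ W) (hB : 4 * Q ^ (t + W) ≤ B)
    (hbB : 8 * B * W ^ t ≤ b) :
    ∃ (S : Type) (_ : Fintype S) (C : ℝ), Fintype.card S = m ^ t * N ∧ 0 < C ∧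
      C ≤ (1 / (W : ℝ)) ^ t ∧ Nonempty (Lvl S N 2 ((b * m) ^ t) ((1 / 4) ^ t) C) := by
  have hN0 : N ≠ 0 := by
    rw [hN]
    have : 0 < ∏ r ∈ Finset.range t, ∏ i ∈ Finset.range m, q r i :=
      Finset.prod_pos fun r hr => Finset.prod_pos fun i hi =>
        (hprime r i (Finset.mem_range.mp hr) (Finset.mem_range.mp hi)).1.pos
    omega
  have hdvd : ∀ r i, r < t → i < m → q r i ∣ N := by
    intro r i hr hi
    rw [hN]
    apply Dvd.dvd.mul_left
    exact (Finset.dvd_prod_of_mem (fun i => q r i) (Finset.mem_range.mpr hi)).trans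
      (Finset.dvd_prod_of_mem (fun r => ∏ i ∈ Finset.range m, q r i) (Finset.mem_range.mpr hr))
  have hWt : 1 ≤ W ^ t := Nat.one_le_pow _ _ (by omega)
  have hBb : B ≤ b := by nlinarith
  have hW0 : (0 : ℝ) < W := by
    have : 0 < W := by omega
    exact_mod_cast this
  have hW2 : (2 : ℝ) ≤ W := by exact_mod_cast hW
  have key : ∀ r, r ≤ t → ∃ (S : Type) (_ : Fintype S) (C : ℝ),
      Fintype.card S = m ^ r * N ∧ 0 < C ∧ C ≤ (1 / (W : ℝ)) ^ r / 2 + 4 * (B : ℝ) / b ∧
      ∀ M, M ∣ N → (∀ r' < r, ∀ i < m, Nat.Coprime M (q r' i)) → M * Q ^ r ≤ 2 * Q ^ t →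
        Nonempty (Lvl S N M ((b * m) ^ r) ((1 / 4) ^ r) C) := by
    intro r
    induction r with
    | zero =>
      intro _
      have : NeZero N := ⟨hN0⟩
      refine ⟨ZMod N, inferInstance, 1 / 2, by simp [ZMod.card], by norm_num, ?_, ?_⟩
      · have : (0 : ℝ) ≤ 4 * (B : ℝ) / b := by positivity
        simp only [pow_zero]
        linarith
      · intro M _ _ _
        simpa using Lvl.base N M hN0
    | succ r ih =>
      intro hr
      have hrt : r < t := by omega
      obtain ⟨S, hS, C, hcard, hC0, hC, hlvl⟩ := ih (by omega)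
      have hQ1 : 1 ≤ Q := by
        obtain ⟨h1, _, h3⟩ := hprime r 0 hrt (by omega)
        exact le_trans h1.one_lt.le h3
      refine ⟨Fin m × S, inferInstance, C / W + 2 * B / b, ?_, ?_, ?_, ?_⟩
      · rw [Fintype.card_prod, Fintype.card_fin, hcard, pow_succ]
        ring
      · positivity
      · have h1 : C / W ≤ ((1 / (W : ℝ)) ^ r / 2 + 4 * (B : ℝ) / b) / W := by gcongr
        have h2 : ((1 / (W : ℝ)) ^ r / 2 + 4 * (B : ℝ) / b) / W
            = (1 / (W : ℝ)) ^ (r + 1) / 2 + 4 * (B : ℝ) / b / W := by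
          rw [pow_succ]; ring
        have h3 : 4 * (B : ℝ) / b / W ≤ 4 * (B : ℝ) / b / 2 := by
          apply div_le_div_of_nonneg_left (by positivity) (by norm_num) hW2
        have h4 : 4 * (B : ℝ) / b / 2 + 2 * B / b = 4 * B / b := by ring
        linarith
      · intro M hMN hMc hMQ
        have hstep := Lvl.step (α := S) (N := N) (M := M) (L := (b * m) ^ r) (m := m) (b := b)
          (B := B) (W := W) (Q := Q) (κ := (1 / 4) ^ r) (C := C) (q r) hN0 hm (by positivity)
          (pow_le_one₀ (by norm_num) (by norm_num))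
          (fun i hi => (hprime r i hrt hi).1)
          (fun i hi j hj h => (hinj r i r j hrt hi hrt hj h).2)
          (fun i hi => hMc r (by omega) i hi)
          (fun i hi => Nat.Coprime.mul_dvd_of_dvd_of_dvd (hMc r (by omega) i hi) hMN
            (hdvd r i hrt hi))
          hb hBb (fun i hi => (hprime r i hrt hi).2.2) (by omega) ?_ ?_
        · have e1 : (b * m) ^ (r + 1) = b * (m * (b * m) ^ r) := by rw [pow_succ]; ring
          have e2 : ((1 : ℝ) / 4) ^ (r + 1) = (1 / 4) ^ r / 4 := by rw [pow_succ]; ring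
          rw [e1, e2]
          exact hstep
        · have h1 : M ≤ M * Q ^ (r + 1) := Nat.le_mul_of_pos_right _ (Nat.pow_pos (by omega))
          calc 2 * (M * Q ^ W) ≤ 2 * ((2 * Q ^ t) * Q ^ W) := by gcongr; exact h1.trans hMQ
            _ = 4 * Q ^ (t + W) := by rw [pow_add]; ring
            _ ≤ B := hB
        · intro i hi
          obtain ⟨hp1, hp2, hp3⟩ := hprime r i hrt hi
          apply hlvl
          · exact Nat.Coprime.mul_dvd_of_dvd_of_dvd (hMc r (by omega) i hi) hMN
              (hdvd r i hrt hi)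
          · intro r' hr' i' hi'
            apply Nat.Coprime.mul_left (hMc r' (by omega) i' hi')
            obtain ⟨hp1', _, _⟩ := hprime r' i' (by omega) hi'
            rw [Nat.coprime_primes hp1 hp1']
            intro h
            have := (hinj r i r' i' hrt hi (by omega) hi' h).1
            omega
          · calc M * q r i * Q ^ r ≤ M * Q * Q ^ r := by gcongr
              _ = M * Q ^ (r + 1) := by rw [pow_succ]; ring
              _ ≤ _ := hMQ
  obtain ⟨S, hS, C, hcard, hC0, hC, hlvl⟩ := key t le_rfl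
  refine ⟨S, hS, C, hcard, hC0, ?_, hlvl 2 ⟨_, hN⟩ ?_ le_rfl⟩
  · refine hC.trans ?_
    have h1 : 4 * (B : ℝ) / b ≤ (1 / (W : ℝ)) ^ t / 2 := by
      rcases Nat.eq_zero_or_pos b with h0 | h0
      · rw [h0]
        simp only [Nat.cast_zero, div_zero]
        positivity
      · have h0' : (0 : ℝ) < b := by exact_mod_cast h0
        rw [div_le_iff₀ h0', one_div, inv_pow]
        have h2 : (8 * B * W ^ t : ℝ) ≤ b := by exact_mod_cast hbB
        have h3 : (0 : ℝ) < (W : ℝ) ^ t := by positivity
        rw [div_mul_eq_mul_div, le_div_iff₀ (by norm_num), inv_mul_eq_div, le_div_iff₀ h3]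
        linarith
    linarith
  · intro r hr i hi
    obtain ⟨hp1, hp2, _⟩ := hprime r i hr hi
    exact (Nat.coprime_primes Nat.prime_two hp1).mpr (Ne.symm hp2)

theorem main_k : ∃ k₀ : ℕ, ∀ k ≥ k₀, ∀ (f : List Bool → lp (fun _ : ℕ => ℝ) 1) (s D : ℝ), 0 < s →
    (∀ x y : List Bool,
      x.length = codeLen k * ((2 ^ (5 + 9 * k * 2 ^ k)) * 4 ^ k) ^ (2 ^ k) →
      y.length = codeLen k * ((2 ^ (5 + 9 * k * 2 ^ k)) * 4 ^ k) ^ (2 ^ k) → x ≠ y →
      s * (editDist x y : ℝ) ≤ ‖f x - f y‖ ∧ ‖f x - f y‖ ≤ D * s * (editDist x y : ℝ)) →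
    ((2 : ℝ) ^ k / 4) ^ (2 ^ k) / (4 * (codeLen k : ℝ)) ≤ D := by
  obtain ⟨k₁, hk₁⟩ := exists_primes
  refine ⟨max k₁ 7, fun k hk f s D hs hf => ?_⟩
  have hk1 : k₁ ≤ k := le_trans (le_max_left _ _) hk
  have hk7 : 7 ≤ k := le_trans (le_max_right _ _) hk
  obtain ⟨q, hq, hqinj⟩ := hk₁ k hk1
  set N := 2 * ∏ r ∈ Finset.range (2 ^ k), ∏ i ∈ Finset.range (4 ^ k), q r i with hN
  have hm : 6 ≤ 4 ^ k := le_trans (by norm_num) (Nat.pow_le_pow_right (by norm_num) hk7)
  have hbm : 2 ^ (5 + 9 * k * 2 ^ k) ≤ 2 ^ (4 ^ k / 2) := by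
    apply Nat.pow_le_pow_right (by norm_num)
    -- 5 + 9 k 2^k ≤ 4^k / 2
    have h2 : 18 * k + 1 ≤ 2 ^ k := by
      have : ∀ j, 7 ≤ j → 18 * j + 2 ≤ 2 ^ j := by
        intro j hj
        induction j, hj using Nat.le_induction with
        | base => norm_num
        | succ j hj ih => rw [pow_succ]; omega
      have := this k hk7
      omega
    have h3 : 4 ^ k = 2 ^ k * 2 ^ k := by rw [← mul_pow]; norm_num
    rw [h3, Nat.le_div_iff_mul_le (by norm_num)]
    have h4 : 128 ≤ 2 ^ k := le_trans (by norm_num) (Nat.pow_le_pow_right (by norm_num : 0 < 2) hk7)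
    nlinarith
  have hB : 4 * (2 ^ (4 * k)) ^ (2 ^ k + 2 ^ k) ≤ 2 ^ (2 + 8 * k * 2 ^ k) := by
    rw [← pow_mul, show (4 : ℕ) = 2 ^ 2 by norm_num, ← pow_add]
    apply Nat.pow_le_pow_right (by norm_num)
    apply le_of_eq
    ring
  have hbB : 8 * 2 ^ (2 + 8 * k * 2 ^ k) * (2 ^ k) ^ (2 ^ k) ≤ 2 ^ (5 + 9 * k * 2 ^ k) := by
    rw [← pow_mul, show (8 : ℕ) = 2 ^ 3 by norm_num, ← pow_add, ← pow_add]
    apply Nat.pow_le_pow_right (by norm_num)
    apply le_of_eq
    ring
  obtain ⟨S, hS, C, hcard, hC0, hC, ⟨Lv⟩⟩ := tower_exists (t := 2 ^ k) (m := 4 ^ k)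
    (b := 2 ^ (5 + 9 * k * 2 ^ k)) (B := 2 ^ (2 + 8 * k * 2 ^ k)) (W := 2 ^ k)
    (Q := 2 ^ (4 * k)) (N := N) q hN hm hq hqinj hbm
    (le_trans (by norm_num) (Nat.pow_le_pow_right (by norm_num : 0 < 2) hk7)) hB hbB
  have hprod0 : 0 < ∏ r ∈ Finset.range (2 ^ k), ∏ i ∈ Finset.range (4 ^ k), q r i :=
    Finset.prod_pos fun r hr => Finset.prod_pos fun i hi =>
      (hq r i (Finset.mem_range.mp hr) (Finset.mem_range.mp hi)).1.pos
  have hprodle : ∏ r ∈ Finset.range (2 ^ k), ∏ i ∈ Finset.range (4 ^ k), q r i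
      ≤ 2 ^ (4 * k * 8 ^ k) := by
    calc ∏ r ∈ Finset.range (2 ^ k), ∏ i ∈ Finset.range (4 ^ k), q r i
        ≤ ∏ r ∈ Finset.range (2 ^ k), ∏ i ∈ Finset.range (4 ^ k), 2 ^ (4 * k) :=
          Finset.prod_le_prod' fun r hr => Finset.prod_le_prod' fun i hi =>
            (hq r i (Finset.mem_range.mp hr) (Finset.mem_range.mp hi)).2.2
      _ = 2 ^ (4 * k * 8 ^ k) := by
          simp only [Finset.prod_const, Finset.card_range]
          rw [← pow_mul, ← pow_mul]
          congr 1
          rw [mul_assoc, ← mul_pow, mul_assoc]; norm_num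
  have hcard' : Fintype.card S ≤ 2 ^ (2 * k * 2 ^ k + 1 + 4 * k * 8 ^ k) := by
    rw [hcard, hN]
    calc (4 ^ k) ^ 2 ^ k * (2 * ∏ r ∈ Finset.range (2 ^ k), ∏ i ∈ Finset.range (4 ^ k), q r i)
        ≤ (4 ^ k) ^ 2 ^ k * (2 * 2 ^ (4 * k * 8 ^ k)) := by gcongr
      _ = 2 ^ (2 * k * 2 ^ k + 1 + 4 * k * 8 ^ k) := by
          rw [show (4 : ℕ) = 2 ^ 2 by norm_num, ← pow_mul, ← pow_mul, pow_add, pow_add]
          ring
  have hfin := final_of_lvl (N := N) (h := 2 * k * 2 ^ k + 1 + 4 * k * 8 ^ k) ⟨_, hN⟩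
    (by rw [hN]; positivity) hcard' (by positivity) hC0 (by positivity) Lv f s D hs hf
  refine le_trans ?_ hfin
  have hcl : ((2 * (2 * k * 2 ^ k + 1 + 4 * k * 8 ^ k) + 3 : ℕ) : ℝ) = (codeLen k : ℝ) := rfl
  rw [hcl]
  have hcl0 : (0 : ℝ) < codeLen k := by
    have : 0 < codeLen k := by unfold codeLen; omega
    exact_mod_cast this
  have h1 : ((2 : ℝ) ^ k / 4) ^ (2 ^ k) = (1 / 4) ^ (2 ^ k) / (1 / ((2 ^ k : ℕ) : ℝ)) ^ (2 ^ k) := by
    rw [← div_pow]
    congr 1
    push_cast
    field_simp
  rw [h1, div_div]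
  apply div_le_div_of_nonneg_left (by positivity) (by positivity)
  rw [mul_comm]
  gcongr

theorem main :
    ∃ c : ℝ, 0 < c ∧ ∃ d₀ : ℕ, ∀ d : ℕ, d₀ ≤ d → ∃ n : ℕ, n ≤ d ∧
      ∀ (f : List Bool → lp (fun _ : ℕ => ℝ) 1) (s D : ℝ), 0 < s →
        (∀ x y : List Bool, x.length = n → y.length = n → x ≠ y →
          s * (editDist x y : ℝ) ≤ ‖f x - f y‖ ∧ ‖f x - f y‖ ≤ D * s * (editDist x y : ℝ)) →
        Real.exp (c * Real.sqrt (Real.log d * Real.log (Real.log d))) ≤ D := by
  obtain ⟨k₀, hk₀⟩ := main_k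
  obtain ⟨c, hc, d₀, hd₀⟩ := params_asymp
    (fun k => codeLen k * ((2 ^ (5 + 9 * k * 2 ^ k)) * 4 ^ k) ^ (2 ^ k))
    (fun k => ((2 : ℝ) ^ k / 4) ^ (2 ^ k) / (4 * (codeLen k : ℝ))) (max k₀ 6) 25
    (fun k hk => params_len k (le_trans (by norm_num) (le_trans (le_max_right _ _) hk)))
    (fun k hk => params_dist k (le_trans (le_max_right _ _) hk))
  refine ⟨c, hc, d₀, fun d hd => ?_⟩
  obtain ⟨k, hk, hkn, hkE⟩ := hd₀ d hd
  refine ⟨_, hkn, fun f s D hs hf => le_trans hkE ?_⟩
  exact hk₀ k (le_trans (le_max_left _ _) hk) f s D hs hf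

end Crest.Agent.R210
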